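import Vale.Agent.P011.H674.Perm

/-!
**The one step identities.** For commuting symmetric `σ`, `b`: `T b L (cay σ) = L (cay (σ + b)) g`
with `g = T (vv σ b) W (kap σ b)`, the relations between the `g` and the `T l`, and the solvable
group of the permutations `T v W e`.
-/

namespace Vale.Agent.P011.H674.Pair

universe u

section defs

variable {D : Type u} [DivisionRing D]

/-- `kap = 1 + b (σ - δ)⁻¹`. -/
def kap (δ σ b : D) : D := 1 + b * (σ - δ)⁻¹

/-- `vv = b (σ² + b σ + δ²) (σ² - δ²)⁻¹`. -/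
def vv (δ σ b : D) : D := b * (σ ^ 2 + b * σ + δ ^ 2) * (σ ^ 2 - δ ^ 2)⁻¹

/-- `sc = ((σ + b)² - δ²) (σ² - δ²)⁻¹`. -/
def sc (δ σ b : D) : D := ((σ + b) ^ 2 - δ ^ 2) * (σ ^ 2 - δ ^ 2)⁻¹

/-- `wc = c b (b - c) (σ² - δ²)⁻¹`. -/
def wc (δ σ b c : D) : D := c * b * (b - c) * (σ ^ 2 - δ ^ 2)⁻¹

theorem mul_mob (u a b c e y : D) : u * mob a b c e y = mob a b (u * c) (u * e) y := by
  unfold mob
  rw [← mul_assoc, mul_add, mul_assoc u e]

theorem mob_mul_right (a b c e u y : D) :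
    mob a b c e (u * y) = mob a (b * u) c (e * u) y := by
  unfold mob
  rw [mul_assoc, mul_assoc]

/-- The matrix form of the one step identity. -/
theorem key_aux {σ b δ : D} (hcσ : δ * σ = σ * δ) (hcb : δ * b = b * δ) (hc : σ * b = b * σ)
    (h1 : σ - δ ≠ 0) (h2 : σ + δ ≠ 0) (h3 : σ + b - δ ≠ 0) (h4 : σ + b + δ ≠ 0) (k k' v t t' : D)
    (hk : k = 1 + b * (σ - δ)⁻¹) (hk' : k' = (1 + b * (σ + δ)⁻¹)⁻¹) (hv : v = vv δ σ b)
    (ht : t = cay δ σ) (ht' : t' = cay δ (σ + b)) :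
    (2 * δ - v) * (k + k') + v * (k - k') = 2 * (2 * δ - b) ∧
    (2 * δ - v) * (k - k') + v * (k + k') = 2 * (b * t) ∧
    t' * (-v * (k + k') + (2 * δ + v) * (k - k')) = 2 * -b ∧
    t' * (-v * (k - k') + (2 * δ + v) * (k + k')) = 2 * ((2 * δ + b) * t) := by
  subst hk hk' hv ht ht'
  obtain ⟨E, _, φ, s, β, d, rfl, rfl, rfl⟩ := exists_lift3 σ b δ hc hcσ.symm hcb.symm
  have e1 : s - d ≠ 0 := fun h0 => h1 (by rw [← map_sub, h0, map_zero])
  have e2 : s + d ≠ 0 := fun h0 => h2 (by rw [← map_add, h0, map_zero])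
  have e3 : s + β - d ≠ 0 := fun h0 => h3 (by rw [← map_add, ← map_sub, h0, map_zero])
  have e4 : s + β + d ≠ 0 := fun h0 => h4 (by rw [← map_add, ← map_add, h0, map_zero])
  have e5 : s ^ 2 - d ^ 2 = (s - d) * (s + d) := by ring
  have e6 : 1 + β * (s - d)⁻¹ = (s + β - d) * (s - d)⁻¹ := by
    field_simp
    ring
  have e7 : (1 + β * (s + d)⁻¹)⁻¹ = (s + d) * (s + β + d)⁻¹ := by
    have : 1 + β * (s + d)⁻¹ = (s + β + d) * (s + d)⁻¹ := by
      field_simp
      ring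
    rw [this, mul_inv_rev, inv_inv]
  have key : (2 * d - vv d s β) * ((1 + β * (s - d)⁻¹) + (1 + β * (s + d)⁻¹)⁻¹) +
        vv d s β * ((1 + β * (s - d)⁻¹) - (1 + β * (s + d)⁻¹)⁻¹) = 2 * (2 * d - β) ∧
      (2 * d - vv d s β) * ((1 + β * (s - d)⁻¹) - (1 + β * (s + d)⁻¹)⁻¹) +
        vv d s β * ((1 + β * (s - d)⁻¹) + (1 + β * (s + d)⁻¹)⁻¹) = 2 * (β * cay d s) ∧
      cay d (s + β) * (-vv d s β * ((1 + β * (s - d)⁻¹) + (1 + β * (s + d)⁻¹)⁻¹) +
        (2 * d + vv d s β) * ((1 + β * (s - d)⁻¹) - (1 + β * (s + d)⁻¹)⁻¹)) = 2 * -β ∧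
      cay d (s + β) * (-vv d s β * ((1 + β * (s - d)⁻¹) - (1 + β * (s + d)⁻¹)⁻¹) +
        (2 * d + vv d s β) * ((1 + β * (s - d)⁻¹) + (1 + β * (s + d)⁻¹)⁻¹)) =
          2 * ((2 * d + β) * cay d s) := by
    unfold vv cay
    rw [e5, e6, e7, mul_inv_rev]
    refine ⟨?_, ?_, ?_, ?_⟩
    · field_simp
      ring
    · field_simp
      ring
    · field_simp
      ring
    · field_simp
      ring
  obtain ⟨k1, k2, k3, k4⟩ := key
  have l1 := congrArg φ k1
  have l2 := congrArg φ k2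
  have l3 := congrArg φ k3
  have l4 := congrArg φ k4
  simp only [vv, cay, map_add, map_sub, map_mul, map_inv₀, map_neg, map_pow, map_one,
    map_ofNat] at l1 l2 l3 l4
  exact ⟨l1, l2, l3, l4⟩

theorem gp_gp_aux {σ b c δ : D} (h4 : δ * σ = σ * δ) (h5 : δ * b = b * δ) (h6 : δ * c = c * δ)
    (hσb : σ * b = b * σ) (hσc : σ * c = c * σ) (hbc : b * c = c * b)
    (h1 : σ - δ ≠ 0) (h2 : σ + δ ≠ 0) :
    vv δ σ c + sc δ σ c * vv δ σ b = wc δ σ b c + (vv δ σ b + sc δ σ b * vv δ σ c) := by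
  obtain ⟨E, _, φ, s, β, γ, d, rfl, rfl, rfl, rfl⟩ :=
    exists_lift4 σ b c δ hσb hσc h4.symm hbc h5.symm h6.symm
  have k1 : s - d ≠ 0 := fun h0 => h1 (by rw [← map_sub, h0, map_zero])
  have k2 : s + d ≠ 0 := fun h0 => h2 (by rw [← map_add, h0, map_zero])
  have key : vv d s γ + sc d s γ * vv d s β = wc d s β γ + (vv d s β + sc d s β * vv d s γ) := by
    unfold vv sc wc
    have k5 : s ^ 2 - d ^ 2 = (s - d) * (s + d) := by ring
    rw [k5]
    field_simp
    ring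
  have := congrArg φ key
  simpa only [vv, sc, wc, map_add, map_sub, map_mul, map_inv₀, map_neg, map_pow, map_one]
    using this

end defs

variable {D : Type u} [DivisionRing D] [StarRing D]

namespace Chart

variable {U : Subgroup Dˣ} {δ : D} (h : Chart U δ)

include h

theorem del_sq_comm (x : D) : δ ^ 2 * x = x * δ ^ 2 := by
  rw [pow_two, mul_assoc, h.comm x, ← mul_assoc, h.comm x, mul_assoc]

theorem star_del_sq : star (δ ^ 2) = δ ^ 2 := by
  rw [star_pow, h.star_del, neg_sq]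

theorem sq_sub (σ : D) : σ ^ 2 - δ ^ 2 = (σ + δ) * (σ - δ) := by
  rw [add_mul, mul_sub, mul_sub, h.comm σ, pow_two, pow_two]
  abel

theorem sq_sub_ne {σ : D} (hσ : star σ = σ) : σ ^ 2 - δ ^ 2 ≠ 0 := by
  rw [h.sq_sub]
  exact mul_ne_zero (h.add_ne hσ) (h.sub_ne hσ)

theorem star_kap {σ b : D} (hσ : star σ = σ) (hb : star b = b) (hc : σ * b = b * σ) :
    star (kap δ σ b) = 1 + b * (σ + δ)⁻¹ := by
  unfold kap
  have h1 : (σ + δ)⁻¹ * b = b * (σ + δ)⁻¹ := by
    have h2 : Commute b (σ + δ) := by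
      change b * (σ + δ) = (σ + δ) * b
      rw [mul_add, add_mul, hc, h.comm]
    exact (h2.inv_right₀).eq.symm
  rw [star_add, star_one, star_mul, star_inv₀, h.star_sub' hσ, hb, h1]

/-- `kap = (σ + b - δ) (σ - δ)⁻¹`. -/
theorem kap_eq {σ b : D} (hσ : star σ = σ) : kap δ σ b = (σ + b - δ) * (σ - δ)⁻¹ := by
  unfold kap
  have h1 : (1 : D) = (σ - δ) * (σ - δ)⁻¹ := (mul_inv_cancel₀ (h.sub_ne hσ)).symm
  have h2 : σ + b - δ = (σ - δ) + b := by abel
  rw [h2, add_mul, ← h1]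

theorem kap_ne {σ b : D} (hσ : star σ = σ) (hb : star b = b) : kap δ σ b ≠ 0 := by
  rw [h.kap_eq hσ]
  exact mul_ne_zero (h.sub_ne (by rw [star_add, hσ, hb])) (inv_ne_zero (h.sub_ne hσ))

theorem star_vv {σ b : D} (hσ : star σ = σ) (hb : star b = b) (hc : σ * b = b * σ) :
    star (vv δ σ b) = vv δ σ b := by
  unfold vv
  have h1 : star (σ ^ 2 - δ ^ 2) = σ ^ 2 - δ ^ 2 := by
    rw [star_sub, star_pow, hσ, h.star_del_sq]
  have h2 : star (b * (σ ^ 2 + b * σ + δ ^ 2)) = b * (σ ^ 2 + b * σ + δ ^ 2) := by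
    have h3 : Commute b (σ ^ 2 + b * σ + δ ^ 2) := by
      have h4 : Commute b σ := hc.symm
      exact ((h4.pow_right 2).add_right ((Commute.refl b).mul_right h4)).add_right
        (h.del_sq_comm b).symm
    rw [star_mul, star_add, star_add, star_mul, star_pow, hσ, hb, h.star_del_sq, hc, h3.eq]
  have h5 : Commute (b * (σ ^ 2 + b * σ + δ ^ 2)) (σ ^ 2 - δ ^ 2) := by
    have h4 : Commute b σ := hc.symm
    have h6 : Commute b (σ ^ 2 - δ ^ 2) := (h4.pow_right 2).sub_right (h.del_sq_comm b).symm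
    have h7 : Commute σ (σ ^ 2 - δ ^ 2) :=
      ((Commute.refl σ).pow_right 2).sub_right (h.del_sq_comm σ).symm
    have h8 : Commute (δ ^ 2) (σ ^ 2 - δ ^ 2) := h.del_sq_comm _
    exact h6.mul_left (((h7.pow_left 2).add_left (h6.mul_left h7)).add_left h8)
  rw [star_mul, star_inv₀, h1, h2]
  exact (h5.inv_right₀).eq.symm

/-- The permutation `g = T (vv σ b) W (kap σ b)`. -/
noncomputable def gp (σ b : D) : Equiv.Perm U := h.T (vv δ σ b) * h.W (kap δ σ b)

/-- **The one step identity.** -/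
theorem key {σ b : D} (hσ : star σ = σ) (hb : star b = b) (hc : σ * b = b * σ) :
    h.T b * h.L (h.cayU hσ) =
      h.L (h.cayU (s := σ + b) (by rw [star_add, hσ, hb])) * h.gp σ b := by
  have hσb : star (σ + b) = σ + b := by rw [star_add, hσ, hb]
  have hk := h.kap_ne hσ hb
  have hv := h.star_vv hσ hb hc
  refine Equiv.ext fun x => Subtype.ext (Units.ext ?_)
  obtain ⟨k1, k2, k3, k4⟩ := key_aux (h.comm σ) (h.comm b) hc (h.sub_ne hσ) (h.add_ne hσ)
    (h.sub_ne hσb) (h.add_ne hσb) (kap δ σ b) (star (kap δ σ b))⁻¹ (vv δ σ b) (cay δ σ)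
    (cay δ (σ + b)) rfl (by rw [h.star_kap hσ hb hc]) rfl rfl rfl
  have hL : (((h.T b * h.L (h.cayU hσ)) x : Dˣ) : D) =
      mob (2 * δ - b) (b * cay δ σ) (-b) ((2 * δ + b) * cay δ σ) ((x : Dˣ) : D) := by
    rw [Equiv.Perm.mul_apply, h.coe_T hb, L_apply, Subgroup.coe_mul, Units.val_mul, coe_cayU,
      mob_mul_right]
  have hR : (((h.L (h.cayU hσb) * h.gp σ b) x : Dˣ) : D) =
      cay δ (σ + b) * mob (2 * δ - vv δ σ b) (vv δ σ b) (-vv δ σ b) (2 * δ + vv δ σ b)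
        (mob (kap δ σ b + (star (kap δ σ b))⁻¹) (kap δ σ b - (star (kap δ σ b))⁻¹)
          (kap δ σ b - (star (kap δ σ b))⁻¹) (kap δ σ b + (star (kap δ σ b))⁻¹)
          ((x : Dˣ) : D)) := by
    rw [Equiv.Perm.mul_apply, L_apply, Subgroup.coe_mul, Units.val_mul, coe_cayU]
    unfold gp
    rw [Equiv.Perm.mul_apply, h.coe_T hv, h.coe_W hk]
  rw [hL, hR, mob_mob (h.den_W hk x), mul_mob, k1, k2, k3, k4,
    mob_smul (fun x => by rw [two_mul, mul_two]) h.two]

omit [StarRing D] h in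
theorem cay_neg (s : D) : cay δ (-s) = (cay δ s)⁻¹ := by
  unfold cay
  have h1 : -s + δ = -(s - δ) := by abel
  have h2 : -s - δ = -(s + δ) := by abel
  rw [mul_inv_rev, inv_inv, h1, h2, inv_neg, neg_mul_neg]

theorem cayU_neg {s : D} (hs : star s = s) :
    h.cayU (s := -s) (by rw [star_neg, hs]) = (h.cayU hs)⁻¹ := by
  apply Subtype.ext
  apply Units.ext
  rw [Subgroup.coe_inv, Units.val_inv_eq_inv_val, coe_cayU, coe_cayU, cay_neg]

omit [StarRing D] h in
theorem vv_neg (σ b : D) : vv δ (-σ) (-b) = -vv δ σ b := by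
  unfold vv
  rw [neg_sq, neg_mul_neg, neg_mul, neg_mul]

theorem kap_neg {σ b : D} (hσ : star σ = σ) (hb : star b = b) (hc : σ * b = b * σ) :
    kap δ (-σ) (-b) = star (kap δ σ b) := by
  rw [h.star_kap hσ hb hc]
  unfold kap
  have h2 : -σ - δ = -(σ + δ) := by abel
  rw [h2, inv_neg, neg_mul_neg]

/-- The permutation `g⁻ = T (-vv σ b) W (star (kap σ b))`. -/
noncomputable def gm (σ b : D) : Equiv.Perm U := h.T (-vv δ σ b) * h.W (star (kap δ σ b))

theorem gp_neg {σ b : D} (hσ : star σ = σ) (hb : star b = b) (hc : σ * b = b * σ) :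
    h.gp (-σ) (-b) = h.gm σ b := by
  unfold gp gm
  rw [vv_neg, h.kap_neg hσ hb hc]

/-- **The one step identity for the inverse.** -/
theorem key_neg {σ b : D} (hσ : star σ = σ) (hb : star b = b) (hc : σ * b = b * σ) :
    h.T (-b) * h.L (h.cayU hσ)⁻¹ =
      h.L (h.cayU (s := σ + b) (by rw [star_add, hσ, hb]))⁻¹ * h.gm σ b := by
  have h1 := h.key (σ := -σ) (b := -b) (by rw [star_neg, hσ]) (by rw [star_neg, hb])
    (by rw [neg_mul_neg, neg_mul_neg, hc])
  rw [h.gp_neg hσ hb hc, h.cayU_neg hσ] at h1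
  rw [h1]
  congr 2
  rw [← h.cayU_neg]
  exact h.cayU_congr _ _ (by abel)

/-- `kap* = kap t' t⁻¹`. -/
theorem star_kap_eq {σ b : D} (hσ : star σ = σ) (hb : star b = b) (hc : σ * b = b * σ) :
    star (kap δ σ b) = kap δ σ b * (cay δ (σ + b) * (cay δ σ)⁻¹) := by
  rw [h.star_kap hσ hb hc]
  have hσb : star (σ + b) = σ + b := by rw [star_add, hσ, hb]
  have h1 := h.sub_ne hσ
  have h2 := h.add_ne hσ
  have h3 := h.sub_ne hσb
  have h4 := h.comm σ
  have h5 := h.comm b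
  clear hσ hb hσb h
  obtain ⟨E, _, φ, s, β, d, rfl, rfl, rfl⟩ := exists_lift3 σ b δ hc h4.symm h5.symm
  have e1 : s - d ≠ 0 := fun h0 => h1 (by rw [← map_sub, h0, map_zero])
  have e2 : s + d ≠ 0 := fun h0 => h2 (by rw [← map_add, h0, map_zero])
  have e3 : s + β - d ≠ 0 := fun h0 => h3 (by rw [← map_add, ← map_sub, h0, map_zero])
  have key : 1 + β * (s + d)⁻¹ = kap d s β * (cay d (s + β) * (cay d s)⁻¹) := by
    unfold kap cay
    have e6 : 1 + β * (s - d)⁻¹ = (s + β - d) * (s - d)⁻¹ := by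
      field_simp
      ring
    rw [e6, mul_inv_rev, inv_inv]
    field_simp
    ring
  have := congrArg φ key
  simpa only [kap, cay, map_add, map_sub, map_mul, map_inv₀, map_neg, map_pow, map_one] using this

/-- `kap kap* = sc`. -/
theorem kap_mul_star {σ b : D} (hσ : star σ = σ) (hb : star b = b) (hc : σ * b = b * σ) :
    kap δ σ b * star (kap δ σ b) = sc δ σ b := by
  rw [h.star_kap hσ hb hc]
  have h1 := h.sub_ne hσ
  have h2 := h.add_ne hσ
  have h4 := h.comm σ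
  have h5 := h.comm b
  clear hσ hb h
  obtain ⟨E, _, φ, s, β, d, rfl, rfl, rfl⟩ := exists_lift3 σ b δ hc h4.symm h5.symm
  have e1 : s - d ≠ 0 := fun h0 => h1 (by rw [← map_sub, h0, map_zero])
  have e2 : s + d ≠ 0 := fun h0 => h2 (by rw [← map_add, h0, map_zero])
  have key : kap d s β * (1 + β * (s + d)⁻¹) = sc d s β := by
    unfold kap sc
    have e5 : s ^ 2 - d ^ 2 = (s - d) * (s + d) := by ring
    rw [e5]
    field_simp
    ring
  have := congrArg φ key
  simpa only [kap, cay, sc, map_add, map_sub, map_mul, map_inv₀, map_neg, map_pow, map_one]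
    using this

/-- Conjugation by unitary elements: `W u x = u x u⁻¹`. -/
theorem W_unit (u x : U) : h.W ((u : Dˣ) : D) x = u * x * u⁻¹ := by
  have hu : ((u : Dˣ) : D) ≠ 0 := Units.ne_zero _
  apply Subtype.ext
  apply Units.ext
  have h1 : ((u : Dˣ) : D) - ((u : Dˣ) : D) = 2 * 0 := by rw [sub_self, mul_zero]
  rw [h.coe_W hu, h.star_eq, inv_inv, h1, ← two_mul,
    mob_smul (fun x => by rw [two_mul, mul_two]) h.two, Subgroup.coe_mul, Subgroup.coe_mul,
    Subgroup.coe_inv, Units.val_mul, Units.val_mul, Units.val_inv_eq_inv_val]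
  unfold mob
  rw [zero_mul, add_zero, zero_add]

/-- `T b` for central `b` commutes with the conjugations. -/
theorem T_central {b : D} (hb : star b = b) (hbc : ∀ x, b * x = x * b) (u : U) :
    h.T b * h.W ((u : Dˣ) : D) = h.W ((u : Dˣ) : D) * h.T b := by
  have hu : ((u : Dˣ) : D) ≠ 0 := Units.ne_zero _
  rw [h.W_T hu hb, ← hbc, mul_assoc b, h.mul_star, mul_one]

theorem T_central_apply {b : D} (hb : star b = b) (hbc : ∀ x, b * x = x * b) (u x : U) :
    h.T b (u * x * u⁻¹) = u * h.T b x * u⁻¹ := by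
  rw [← h.W_unit, ← h.W_unit, ← Equiv.Perm.mul_apply, h.T_central hb hbc, Equiv.Perm.mul_apply]

/-- `T b x` commutes with `x` for central `b`. -/
theorem T_commute {b : D} (hb : star b = b) (hbc : ∀ x, b * x = x * b) (x : U) :
    h.T b x * x = x * h.T b x := by
  have h1 := h.T_central_apply hb hbc x x
  rw [mul_inv_cancel_right] at h1
  rw [h1, inv_mul_cancel_right, ← h1]

theorem comm_del {e : D} : Commute δ e := h.comm e

/-- The relation `g T l g⁻¹ = T (sc l)`. -/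
theorem gp_T {σ b l : D} (hσ : star σ = σ) (hb : star b = b) (hc : σ * b = b * σ)
    (hl : star l = l) (hσl : σ * l = l * σ) (hbl : b * l = l * b) :
    h.gp σ b * h.T l * (h.gp σ b)⁻¹ = h.T (sc δ σ b * l) := by
  have hv := h.star_vv hσ hb hc
  have hk := h.kap_ne hσ hb
  have h1 : kap δ σ b * l * star (kap δ σ b) = sc δ σ b * l := by
    have h2 : Commute (star (kap δ σ b)) l := by
      rw [h.star_kap hσ hb hc]
      have h3 : Commute (σ + δ) l := (show Commute σ l from hσl).add_left (h.comm l)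
      exact (Commute.one_left l).add_left
        ((show Commute b l from hbl).mul_left h3.inv_left₀)
    rw [mul_assoc, ← h2.eq, ← mul_assoc, h.kap_mul_star hσ hb hc]
  have h4 : star (sc δ σ b * l) = sc δ σ b * l := by
    rw [← h1, star_conj _ hl]
  unfold gp
  rw [mul_inv_rev, mul_assoc (h.T _), mul_assoc, mul_assoc, ← mul_assoc (h.T l),
    ← mul_assoc (h.W _), ← mul_assoc (h.W _), h.W_T_inv hk hl, h1, ← mul_assoc, h.T_comm hv h4,
    mul_inv_cancel_right]

theorem star_sc {σ b : D} (hσ : star σ = σ) (hb : star b = b) (hc : σ * b = b * σ) :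
    star (sc δ σ b) = sc δ σ b := by
  rw [← h.kap_mul_star hσ hb hc, star_mul, star_star]

/-- Elements of the centralizer of `σ` and `b` commute with `star kap`. -/
theorem star_kap_comm {σ b l : D} (hσ : star σ = σ) (hb : star b = b) (hc : σ * b = b * σ)
    (hσl : σ * l = l * σ) (hbl : b * l = l * b) :
    star (kap δ σ b) * l = l * star (kap δ σ b) := by
  rw [h.star_kap hσ hb hc]
  have h3 : Commute (σ + δ) l := (show Commute σ l from hσl).add_left (h.comm l)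
  exact (Commute.one_left l).add_left ((show Commute b l from hbl).mul_left h3.inv_left₀)

theorem kap_comm {σ b l : D} (hσl : σ * l = l * σ) (hbl : b * l = l * b) :
    kap δ σ b * l = l * kap δ σ b := by
  have h3 : Commute (σ - δ) l := (show Commute σ l from hσl).sub_left (h.comm l)
  exact (Commute.one_left l).add_left ((show Commute b l from hbl).mul_left h3.inv_left₀)

theorem kap_conj {σ b l : D} (hσ : star σ = σ) (hb : star b = b) (hc : σ * b = b * σ)
    (hσl : σ * l = l * σ) (hbl : b * l = l * b) :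
    kap δ σ b * l * star (kap δ σ b) = sc δ σ b * l := by
  rw [mul_assoc, ← h.star_kap_comm hσ hb hc hσl hbl, ← mul_assoc, h.kap_mul_star hσ hb hc]

theorem vv_comm {σ b l : D} (hσl : σ * l = l * σ) (hbl : b * l = l * b) :
    vv δ σ b * l = l * vv δ σ b := by
  have h1 : Commute σ l := hσl
  have h2 : Commute b l := hbl
  have h3 : Commute (δ ^ 2) l := h.del_sq_comm l
  exact (h2.mul_left (((h1.pow_left 2).add_left (h2.mul_left h1)).add_left h3)).mul_left
    ((h1.pow_left 2).sub_left h3).inv_left₀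

theorem star_wc {σ b c : D} (hσ : star σ = σ) (hb : star b = b) (hc : star c = c)
    (hσb : σ * b = b * σ) (hσc : σ * c = c * σ) (hbc : b * c = c * b) :
    star (wc δ σ b c) = wc δ σ b c := by
  have h1 : Commute σ b := hσb
  have h2 : Commute σ c := hσc
  have h3 : Commute b c := hbc
  have h4 : star (σ ^ 2 - δ ^ 2) = σ ^ 2 - δ ^ 2 := by
    rw [star_sub, star_pow, hσ, h.star_del_sq]
  have h5 : ∀ x : D, σ * x = x * σ → Commute (σ ^ 2 - δ ^ 2) x := fun x hx =>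
    ((show Commute σ x from hx).pow_left 2).sub_left (h.del_sq_comm x)
  have h6 : Commute (σ ^ 2 - δ ^ 2) (c * b * (b - c)) :=
    ((h5 c hσc).mul_right (h5 b hσb)).mul_right ((h5 b hσb).sub_right (h5 c hσc))
  have h7 : Commute (b - c) (c * b) :=
    ((h3.mul_right (Commute.refl b))).sub_left ((Commute.refl c).mul_right h3.symm)
  unfold wc
  rw [star_mul, star_inv₀, h4, star_mul, star_mul, star_sub, hb, hc, hbc, h7.eq]
  exact h6.inv_left₀.eq

/-- The relation `g_c g_b g_c⁻¹ = T (wc) g_b`. -/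
theorem gp_gp {σ b c : D} (hσ : star σ = σ) (hb : star b = b) (hc : star c = c)
    (hσb : σ * b = b * σ) (hσc : σ * c = c * σ) (hbc : b * c = c * b) :
    h.gp σ c * h.gp σ b * (h.gp σ c)⁻¹ = h.T (wc δ σ b c) * h.gp σ b := by
  have hvb := h.star_vv hσ hb hσb
  have hvc := h.star_vv hσ hc hσc
  have hkb := h.kap_ne hσ hb
  have hkc := h.kap_ne hσ hc
  have hw := h.star_wc hσ hb hc hσb hσc hbc
  have e1 : kap δ σ c * vv δ σ b * star (kap δ σ c) = sc δ σ c * vv δ σ b :=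
    h.kap_conj hσ hc hσc (h.vv_comm rfl hσb.symm).symm (h.vv_comm hσc hbc).symm
  have e2 : kap δ σ b * vv δ σ c * star (kap δ σ b) = sc δ σ b * vv δ σ c :=
    h.kap_conj hσ hb hσb (h.vv_comm rfl hσc.symm).symm (h.vv_comm hσb hbc.symm).symm
  have e3 : h.W (kap δ σ c) * h.W (kap δ σ b) = h.W (kap δ σ b) * h.W (kap δ σ c) := by
    rw [← h.W_mul hkc hkb, ← h.W_mul hkb hkc, h.kap_comm]
    · exact (h.kap_comm rfl hσb.symm).symm
    · exact (h.kap_comm hσc hbc).symm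
  have s1 : star (sc δ σ c * vv δ σ b) = sc δ σ c * vv δ σ b := by rw [← e1, star_conj _ hvb]
  have s2 : star (sc δ σ b * vv δ σ c) = sc δ σ b * vv δ σ c := by rw [← e2, star_conj _ hvc]
  have key : vv δ σ c + sc δ σ c * vv δ σ b = wc δ σ b c + (vv δ σ b + sc δ σ b * vv δ σ c) :=
    gp_gp_aux (h.comm σ) (h.comm b) (h.comm c) hσb hσc hbc (h.sub_ne hσ) (h.add_ne hσ)
  rw [mul_inv_eq_iff_eq_mul]
  unfold gp
  calc h.T (vv δ σ c) * h.W (kap δ σ c) * (h.T (vv δ σ b) * h.W (kap δ σ b))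
      = h.T (vv δ σ c) * (h.W (kap δ σ c) * h.T (vv δ σ b)) * h.W (kap δ σ b) := by
        simp only [mul_assoc]
    _ = h.T (vv δ σ c + sc δ σ c * vv δ σ b) * (h.W (kap δ σ c) * h.W (kap δ σ b)) := by
        rw [h.W_T hkc hvb, e1, h.T_add hvc s1]
        simp only [mul_assoc]
    _ = h.T (wc δ σ b c + (vv δ σ b + sc δ σ b * vv δ σ c)) *
          (h.W (kap δ σ b) * h.W (kap δ σ c)) := by rw [key, e3]
    _ = h.T (wc δ σ b c) * (h.T (vv δ σ b) * (h.T (sc δ σ b * vv δ σ c) * h.W (kap δ σ b))) *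
          h.W (kap δ σ c) := by
        rw [h.T_add hw (by rw [star_add, hvb, s2]), h.T_add hvb s2]
        simp only [mul_assoc]
    _ = h.T (wc δ σ b c) * (h.T (vv δ σ b) * h.W (kap δ σ b)) *
          (h.T (vv δ σ c) * h.W (kap δ σ c)) := by
        rw [← e2, ← h.W_T hkb hvc]
        simp only [mul_assoc]

omit [StarRing D] h in
theorem sc_neg (σ b : D) : sc δ (-σ) (-b) = sc δ σ b := by
  unfold sc
  rw [← neg_add, neg_sq, neg_sq]

omit [StarRing D] h in
theorem wc_neg (σ b c : D) : wc δ (-σ) (-b) (-c) = -wc δ σ b c := by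
  unfold wc
  have h1 : -b - -c = -(b - c) := by abel
  rw [neg_mul_neg, h1, neg_sq, mul_neg, neg_mul]

/-- The relation `g⁻ T l (g⁻)⁻¹ = T (sc l)`. -/
theorem gm_T {σ b l : D} (hσ : star σ = σ) (hb : star b = b) (hc : σ * b = b * σ)
    (hl : star l = l) (hσl : σ * l = l * σ) (hbl : b * l = l * b) :
    h.gm σ b * h.T l * (h.gm σ b)⁻¹ = h.T (sc δ σ b * l) := by
  rw [← h.gp_neg hσ hb hc, ← sc_neg]
  exact h.gp_T (by rw [star_neg, hσ]) (by rw [star_neg, hb]) (by rw [neg_mul_neg, neg_mul_neg, hc])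
    hl (by rw [neg_mul, mul_neg, hσl]) (by rw [neg_mul, mul_neg, hbl])

/-- The relation `g⁻_c g⁻_b (g⁻_c)⁻¹ = T (-wc) g⁻_b`. -/
theorem gm_gm {σ b c : D} (hσ : star σ = σ) (hb : star b = b) (hc : star c = c)
    (hσb : σ * b = b * σ) (hσc : σ * c = c * σ) (hbc : b * c = c * b) :
    h.gm σ c * h.gm σ b * (h.gm σ c)⁻¹ = h.T (-wc δ σ b c) * h.gm σ b := by
  rw [← h.gp_neg hσ hb hσb, ← h.gp_neg hσ hc hσc, ← wc_neg]
  exact h.gp_gp (by rw [star_neg, hσ]) (by rw [star_neg, hb]) (by rw [star_neg, hc])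
    (by rw [neg_mul_neg, neg_mul_neg, hσb]) (by rw [neg_mul_neg, neg_mul_neg, hσc])
    (by rw [neg_mul_neg, neg_mul_neg, hbc])

/-- The unitary element `t' t⁻¹`. -/
def ut {σ b : D} (hσ : star σ = σ) (hb : star b = b) : U :=
  h.cayU (s := σ + b) (by rw [star_add, hσ, hb]) * (h.cayU hσ)⁻¹

theorem coe_ut {σ b : D} (hσ : star σ = σ) (hb : star b = b) :
    ((h.ut hσ hb : Dˣ) : D) = cay δ (σ + b) * (cay δ σ)⁻¹ := by
  unfold ut
  rw [Subgroup.coe_mul, Units.val_mul, Subgroup.coe_inv, Units.val_inv_eq_inv_val, coe_cayU,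
    coe_cayU]

/-- `g⁻ = T (-vv) W (kap) W (t' t⁻¹)`. -/
theorem gm_eq {σ b : D} (hσ : star σ = σ) (hb : star b = b) (hc : σ * b = b * σ) :
    h.gm σ b = h.T (-vv δ σ b) * h.W (kap δ σ b) * h.W ((h.ut hσ hb : Dˣ) : D) := by
  unfold gm
  rw [mul_assoc, ← h.W_mul (h.kap_ne hσ hb) (Units.ne_zero _), coe_ut,
    ← h.star_kap_eq hσ hb hc]

/-- The two elements `g`, `g⁻`: `g = T (vv) W (kap)` and `g⁻ = T (-2 vv) g W (t' t⁻¹)`. -/
theorem gm_eq' {σ b : D} (hσ : star σ = σ) (hb : star b = b) (hc : σ * b = b * σ) :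
    h.gm σ b = h.T (-(vv δ σ b + vv δ σ b)) * h.gp σ b * h.W ((h.ut hσ hb : Dˣ) : D) := by
  have hv := h.star_vv hσ hb hc
  rw [h.gm_eq hσ hb hc]
  unfold gp
  rw [← mul_assoc (h.T (-(vv δ σ b + vv δ σ b))), ← h.T_add (by rw [star_neg, star_add, hv]) hv]
  congr 3
  abel

end Chart

/-- A commutative subring which is closed under the involution and inverses and contains `δ`. -/
structure CStar (δ : D) (E : Subring D) : Prop where
  comm : ∀ x ∈ E, ∀ y ∈ E, x * y = y * x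
  star_mem : ∀ x ∈ E, star x ∈ E
  inv_mem : ∀ x ∈ E, x⁻¹ ∈ E
  del_mem : δ ∈ E

namespace CStar

variable {δ : D} {E : Subring D} (hE : CStar δ E)

include hE

theorem kap_mem {σ b : D} (hσ : σ ∈ E) (hb : b ∈ E) : kap δ σ b ∈ E :=
  E.add_mem E.one_mem (E.mul_mem hb (hE.inv_mem _ (E.sub_mem hσ hE.del_mem)))

theorem vv_mem {σ b : D} (hσ : σ ∈ E) (hb : b ∈ E) : vv δ σ b ∈ E :=
  E.mul_mem (E.mul_mem hb (E.add_mem (E.add_mem (E.pow_mem hσ 2) (E.mul_mem hb hσ))
    (E.pow_mem hE.del_mem 2))) (hE.inv_mem _ (E.sub_mem (E.pow_mem hσ 2) (E.pow_mem hE.del_mem 2)))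

theorem sc_mem {σ b : D} (hσ : σ ∈ E) (hb : b ∈ E) : sc δ σ b ∈ E :=
  E.mul_mem (E.sub_mem (E.pow_mem (E.add_mem hσ hb) 2) (E.pow_mem hE.del_mem 2))
    (hE.inv_mem _ (E.sub_mem (E.pow_mem hσ 2) (E.pow_mem hE.del_mem 2)))

theorem wc_mem {σ b c : D} (hσ : σ ∈ E) (hb : b ∈ E) (hc : c ∈ E) : wc δ σ b c ∈ E :=
  E.mul_mem (E.mul_mem (E.mul_mem hc hb) (E.sub_mem hb hc))
    (hE.inv_mem _ (E.sub_mem (E.pow_mem hσ 2) (E.pow_mem hE.del_mem 2)))

theorem cay_mem {σ : D} (hσ : σ ∈ E) : cay δ σ ∈ E :=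
  E.mul_mem (E.add_mem hσ hE.del_mem) (hE.inv_mem _ (E.sub_mem hσ hE.del_mem))

end CStar

namespace Chart

variable {U : Subgroup Dˣ} {δ : D} (h : Chart U δ)

/-- The group of the permutations `T v W e`, `v`, `e` in `E`. -/
noncomputable def PE {E : Subring D} (hE : CStar δ E) : Subgroup (Equiv.Perm U) where
  carrier := {g | ∃ v ∈ E, star v = v ∧ ∃ e ∈ E, e ≠ 0 ∧ g = h.T v * h.W e}
  mul_mem' := by
    rintro _ _ ⟨v, hv, hv', e, he, he', rfl⟩ ⟨w, hw, hw', f, hf, hf', rfl⟩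
    refine ⟨v + e * w * star e, E.add_mem hv (E.mul_mem (E.mul_mem he hw) (hE.star_mem e he)),
      by rw [star_add, hv', star_conj e hw'], e * f, E.mul_mem he hf, mul_ne_zero he' hf', ?_⟩
    rw [mul_assoc, ← mul_assoc (h.W e), h.W_T he' hw', h.T_add hv' (star_conj e hw'),
      h.W_mul he' hf']
    simp only [mul_assoc]
  one_mem' := ⟨0, E.zero_mem, star_zero D, 1, E.one_mem, one_ne_zero, by
    rw [h.T_zero, h.W_one, one_mul]⟩
  inv_mem' := by
    rintro _ ⟨v, hv, hv', e, he, he', rfl⟩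
    have he'' := hE.inv_mem e he
    refine ⟨e⁻¹ * -v * star e⁻¹, E.mul_mem (E.mul_mem he'' (E.neg_mem hv)) (hE.star_mem _ he''),
      star_conj _ (by rw [star_neg, hv']), e⁻¹, he'', inv_ne_zero he', ?_⟩
    rw [← h.W_T (inv_ne_zero he') (by rw [star_neg, hv']), h.W_inv he', h.T_neg hv',
      mul_inv_rev]

theorem mem_PE {E : Subring D} (hE : CStar δ E) {g : Equiv.Perm U} :
    g ∈ h.PE hE ↔ ∃ v ∈ E, star v = v ∧ ∃ e ∈ E, e ≠ 0 ∧ g = h.T v * h.W e := Iff.rfl

theorem T_mem_PE {E : Subring D} (hE : CStar δ E) {v : D} (hv : v ∈ E) (hv' : star v = v) :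
    h.T v ∈ h.PE hE := ⟨v, hv, hv', 1, E.one_mem, one_ne_zero, by rw [h.W_one, mul_one]⟩

theorem W_mem_PE {E : Subring D} (hE : CStar δ E) {e : D} (he : e ∈ E) (he' : e ≠ 0) :
    h.W e ∈ h.PE hE := ⟨0, E.zero_mem, star_zero D, e, he, he', by rw [h.T_zero, one_mul]⟩

theorem gp_mem_PE {E : Subring D} (hE : CStar δ E) {σ b : D} (hσ : σ ∈ E) (hb : b ∈ E)
    (hσ' : star σ = σ) (hb' : star b = b) : h.gp σ b ∈ h.PE hE :=
  ⟨_, hE.vv_mem hσ hb, h.star_vv hσ' hb' (hE.comm _ hσ _ hb), _, hE.kap_mem hσ hb,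
    h.kap_ne hσ' hb', rfl⟩

theorem gm_mem_PE {E : Subring D} (hE : CStar δ E) {σ b : D} (hσ : σ ∈ E) (hb : b ∈ E)
    (hσ' : star σ = σ) (hb' : star b = b) : h.gm σ b ∈ h.PE hE := by
  rw [← h.gp_neg hσ' hb' (hE.comm _ hσ _ hb)]
  exact h.gp_mem_PE hE (E.neg_mem hσ) (E.neg_mem hb) (by rw [star_neg, hσ']) (by rw [star_neg, hb'])

/-- The translations in `PE`. -/
noncomputable def TE {E : Subring D} (hE : CStar δ E) : Subgroup (h.PE hE) where
  carrier := {g | ∃ v ∈ E, star v = v ∧ (g : Equiv.Perm U) = h.T v}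
  mul_mem' := by
    rintro g g' ⟨v, hv, hv', h1⟩ ⟨w, hw, hw', h2⟩
    exact ⟨v + w, E.add_mem hv hw, by rw [star_add, hv', hw'], by
      rw [Subgroup.coe_mul, h1, h2, h.T_add hv' hw']⟩
  one_mem' := ⟨0, E.zero_mem, star_zero D, by rw [h.T_zero, Subgroup.coe_one]⟩
  inv_mem' := by
    rintro g ⟨v, hv, hv', h1⟩
    exact ⟨-v, E.neg_mem hv, by rw [star_neg, hv'], by rw [Subgroup.coe_inv, h1, h.T_neg hv']⟩

theorem TE_comm {E : Subring D} (hE : CStar δ E) : ∀ a ∈ h.TE hE, ∀ b ∈ h.TE hE,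
    a * b = b * a := by
  rintro a ⟨v, -, hv', h1⟩ b ⟨w, -, hw', h2⟩
  apply Subtype.ext
  rw [Subgroup.coe_mul, Subgroup.coe_mul, h1, h2, h.T_comm hv' hw']

theorem commutator_mem_TE {E : Subring D} (hE : CStar δ E) (a b : h.PE hE) :
    a * b * a⁻¹ * b⁻¹ ∈ h.TE hE := by
  obtain ⟨a, v, hv, hv', e, he, he', rfl⟩ := a
  obtain ⟨b, w, hw, hw', f, hf, hf', rfl⟩ := b
  have h1 : h.W e * h.W f = h.W f * h.W e := by
    rw [← h.W_mul he' hf', ← h.W_mul hf' he', hE.comm e he f hf]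
  refine ⟨v + e * w * star e - f * v * star f - w, ?_, ?_, ?_⟩
  · exact E.sub_mem (E.sub_mem (E.add_mem hv (E.mul_mem (E.mul_mem he hw) (hE.star_mem e he)))
      (E.mul_mem (E.mul_mem hf hv) (hE.star_mem f hf))) hw
  · rw [star_sub, star_sub, star_add, hv', star_conj e hw', star_conj f hv', hw']
  · have s1 : star (v + e * w * star e) = v + e * w * star e := by
      rw [star_add, hv', star_conj e hw']
    have s2 : star (v + e * w * star e - f * v * star f) = v + e * w * star e - f * v * star f := by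
      rw [star_sub, s1, star_conj f hv']
    change h.T v * h.W e * (h.T w * h.W f) * (h.T v * h.W e)⁻¹ * (h.T w * h.W f)⁻¹ = _
    rw [mul_inv_eq_iff_eq_mul, mul_inv_eq_iff_eq_mul, h.T_sub s2 hw', h.T_sub s1 (star_conj f hv'),
      h.T_add hv' (star_conj e hw')]
    calc h.T v * h.W e * (h.T w * h.W f)
        = h.T v * (h.W e * h.T w) * h.W f := by simp only [mul_assoc]
      _ = h.T v * h.T (e * w * star e) * (h.W e * h.W f) := by
          rw [h.W_T he' hw']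
          simp only [mul_assoc]
      _ = h.T v * h.T (e * w * star e) * (h.T (f * v * star f))⁻¹ *
            (h.T (f * v * star f) * h.W f) * h.W e := by
          rw [h1]
          simp only [mul_assoc, inv_mul_cancel_left]
      _ = h.T v * h.T (e * w * star e) * (h.T (f * v * star f))⁻¹ * (h.T w)⁻¹ *
            (h.T w * h.W f) * (h.T v * h.W e) := by
          rw [← h.W_T hf' hv']
          simp only [mul_assoc, inv_mul_cancel_left]

end Chart

end Vale.Agent.P011.H674.Pair
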