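import Vale.Agent.P011.H674.Chart

/-!
**The permutations `T v`, `W e`, `L u` of the unitary group**, their group laws, their form as
fractional linear maps, and the one step identities
`T b L (cay σ) = L (cay (σ + b)) T (vv σ b) W (kap σ b)`.
-/

namespace Vale.Agent.P011.H674.Pair

universe u

variable {D : Type u} [DivisionRing D] [StarRing D]

/-- The translations of the symmetric elements. -/
def trS (v : Sy D) : Equiv.Perm (Sy D) where
  toFun s := ⟨s.1 + v.1, by rw [star_add, s.2, v.2]⟩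
  invFun s := ⟨s.1 - v.1, by rw [star_sub, s.2, v.2]⟩
  left_inv s := Subtype.ext (add_sub_cancel_right _ _)
  right_inv s := Subtype.ext (sub_add_cancel _ _)

theorem star_conj (e : D) {s : D} (hs : star s = s) : star (e * s * star e) = e * s * star e := by
  rw [star_mul, star_mul, star_star, hs, mul_assoc]

/-- The maps `s ↦ e s e*`. -/
def cjS (e : D) (he : e ≠ 0) : Equiv.Perm (Sy D) where
  toFun s := ⟨e * s.1 * star e, star_conj e s.2⟩
  invFun s := ⟨e⁻¹ * s.1 * star e⁻¹, star_conj e⁻¹ s.2⟩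
  left_inv s := by
    apply Subtype.ext
    change e⁻¹ * (e * s.1 * star e) * star e⁻¹ = s.1
    rw [mul_assoc e, ← mul_assoc e⁻¹, inv_mul_cancel₀ he, one_mul, mul_assoc, ← star_mul,
      inv_mul_cancel₀ he, star_one, mul_one]
  right_inv s := by
    apply Subtype.ext
    change e * (e⁻¹ * s.1 * star e⁻¹) * star e = s.1
    rw [mul_assoc e⁻¹, ← mul_assoc e, mul_inv_cancel₀ he, one_mul, mul_assoc, ← star_mul,
      mul_inv_cancel₀ he, star_one, mul_one]

namespace Chart

variable {U : Subgroup Dˣ} {δ : D} (h : Chart U δ)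

include h

theorem ext_perm {f g : Equiv.Perm U} (h1 : f 1 = g 1)
    (h2 : ∀ (s : D) (hs : star s = s), f (h.cayU hs) = g (h.cayU hs)) : f = g :=
  Equiv.ext (h.cases h1 h2)

theorem cayU_congr {s s' : D} (hs : star s = s) (hs' : star s' = s') (he : s = s') :
    h.cayU hs = h.cayU hs' := by
  subst he
  rfl

open Classical in
/-- The permutation `cay s ↦ cay (s + v)`. -/
noncomputable def T (v : D) : Equiv.Perm U :=
  if hv : star v = v then h.pm (trS ⟨v, hv⟩) else 1

open Classical in
/-- The permutation `cay s ↦ cay (e s e*)`. -/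
noncomputable def W (e : D) : Equiv.Perm U :=
  if he : e = 0 then 1 else h.pm (cjS e he)

theorem T_apply_one (v : D) : h.T v 1 = 1 := by
  unfold T
  split_ifs
  · exact h.pm_one _
  · rfl

theorem W_apply_one (e : D) : h.W e 1 = 1 := by
  unfold W
  split_ifs
  · rfl
  · exact h.pm_one _

theorem T_apply_cay {v s : D} (hv : star v = v) (hs : star s = s) :
    h.T v (h.cayU hs) = h.cayU (s := s + v) (by rw [star_add, hs, hv]) := by
  unfold T
  rw [dif_pos hv, pm_cayU]
  rfl

theorem W_apply_cay {e s : D} (he : e ≠ 0) (hs : star s = s) :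
    h.W e (h.cayU hs) = h.cayU (s := e * s * star e) (star_conj e hs) := by
  unfold W
  rw [dif_neg he, pm_cayU]
  rfl

theorem T_zero : h.T 0 = 1 := by
  refine h.ext_perm (h.T_apply_one 0) fun s hs => ?_
  rw [h.T_apply_cay (star_zero D) hs]
  exact h.cayU_congr _ hs (add_zero s)

theorem T_add {v w : D} (hv : star v = v) (hw : star w = w) :
    h.T (v + w) = h.T v * h.T w := by
  refine h.ext_perm ?_ fun s hs => ?_
  · rw [Equiv.Perm.mul_apply, T_apply_one, T_apply_one, T_apply_one]
  · rw [Equiv.Perm.mul_apply, h.T_apply_cay hw hs, h.T_apply_cay hv,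
      h.T_apply_cay (by rw [star_add, hv, hw]) hs]
    exact h.cayU_congr _ _ (by abel)

theorem T_comm {v w : D} (hv : star v = v) (hw : star w = w) :
    h.T v * h.T w = h.T w * h.T v := by
  rw [← h.T_add hv hw, ← h.T_add hw hv, add_comm]

theorem T_neg {v : D} (hv : star v = v) : h.T (-v) = (h.T v)⁻¹ := by
  rw [eq_inv_iff_mul_eq_one, ← h.T_add (by rw [star_neg, hv]) hv, neg_add_cancel, T_zero]

theorem T_sub {v w : D} (hv : star v = v) (hw : star w = w) :
    h.T (v - w) = h.T v * (h.T w)⁻¹ := by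
  rw [sub_eq_add_neg, h.T_add hv (by rw [star_neg, hw]), h.T_neg hw]

theorem W_one : h.W 1 = 1 := by
  refine h.ext_perm (h.W_apply_one 1) fun s hs => ?_
  rw [h.W_apply_cay one_ne_zero hs]
  exact h.cayU_congr _ hs (by rw [star_one, one_mul, mul_one])

theorem W_mul {e f : D} (he : e ≠ 0) (hf : f ≠ 0) : h.W (e * f) = h.W e * h.W f := by
  refine h.ext_perm ?_ fun s hs => ?_
  · rw [Equiv.Perm.mul_apply, W_apply_one, W_apply_one, W_apply_one]
  · rw [Equiv.Perm.mul_apply, h.W_apply_cay hf hs, h.W_apply_cay he,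
      h.W_apply_cay (mul_ne_zero he hf) hs]
    exact h.cayU_congr _ _ (by rw [star_mul]; simp only [mul_assoc])

theorem W_inv {e : D} (he : e ≠ 0) : h.W e⁻¹ = (h.W e)⁻¹ := by
  rw [eq_inv_iff_mul_eq_one, ← h.W_mul (inv_ne_zero he) he, inv_mul_cancel₀ he, W_one]

/-- `W e T v = T (e v e*) W e`. -/
theorem W_T {e v : D} (he : e ≠ 0) (hv : star v = v) :
    h.W e * h.T v = h.T (e * v * star e) * h.W e := by
  refine h.ext_perm ?_ fun s hs => ?_
  · rw [Equiv.Perm.mul_apply, Equiv.Perm.mul_apply, W_apply_one, T_apply_one, T_apply_one,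
      W_apply_one]
  · rw [Equiv.Perm.mul_apply, Equiv.Perm.mul_apply, h.T_apply_cay hv hs, h.W_apply_cay he,
      h.W_apply_cay he, h.T_apply_cay (star_conj e hv)]
    exact h.cayU_congr _ _ (by rw [mul_add, add_mul])

theorem W_T_inv {e v : D} (he : e ≠ 0) (hv : star v = v) :
    h.W e * h.T v * (h.W e)⁻¹ = h.T (e * v * star e) := by
  rw [h.W_T he hv, mul_inv_cancel_right]

/-- The permutation `x ↦ u x`. -/
def L (_ : Chart U δ) (u : U) : Equiv.Perm U := Equiv.mulLeft u

theorem L_apply (u x : U) : h.L u x = u * x := rfl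

theorem L_one : h.L 1 = 1 := Equiv.ext fun x => one_mul x

theorem L_mul (u v : U) : h.L (u * v) = h.L u * h.L v := Equiv.ext fun x => mul_assoc u v x

theorem L_inv (u : U) : h.L u⁻¹ = (h.L u)⁻¹ := by
  rw [eq_inv_iff_mul_eq_one, ← L_mul, inv_mul_cancel, L_one]

/-! ### The permutations as fractional linear maps -/

omit [StarRing D] h in
theorem cay_eq_mob (s : D) : cay δ s = mob (-δ) 1 δ 1 s := by
  unfold cay mob
  rw [one_mul, add_comm δ s, neg_add_eq_sub]

theorem two_del_comm (x : D) : 2 * δ * x = x * (2 * δ) := by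
  rw [two_mul, add_mul, mul_add, h.comm]

theorem two_del_ne : 2 * δ ≠ 0 := mul_ne_zero h.two h.ne

omit h in
theorem star_ne {e : D} (he : e ≠ 0) : star e ≠ 0 := star_ne_zero.mpr he

/-- The denominator of `cay` as a fractional linear map. -/
theorem den_cay {s : D} (hs : star s = s) : -δ + 1 * s ≠ 0 := by
  rw [one_mul, neg_add_eq_sub]
  exact h.sub_ne hs

/-- The matrix of `T v`, multiplied by that of `cay`. -/
theorem mob_T_cay {v s : D} (hs : star s = s) :
    mob (2 * δ - v) v (-v) (2 * δ + v) (cay δ s) = cay δ (s + v) := by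
  have h1 : mob (2 * δ - v) v (-v) (2 * δ + v) (cay δ s) =
      mob (2 * δ * (-δ + v)) (2 * δ * 1) (2 * δ * (δ + v)) (2 * δ * 1) s := by
    rw [cay_eq_mob, mob_mob (h.den_cay hs)]
    congr 1
    · simp only [mul_add, add_mul, sub_mul, mul_neg, two_mul, h.comm v]
      abel
    · rw [mul_one, mul_one, mul_one]
      abel
    · simp only [mul_add, add_mul, neg_mul, mul_neg, neg_neg, two_mul, h.comm v]
      abel
    · rw [mul_one, mul_one, mul_one]
      abel
  rw [h1, mob_smul h.two_del_comm h.two_del_ne]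
  unfold mob cay
  have h2 : δ + v + 1 * s = s + v + δ := by
    rw [one_mul]
    abel
  have h3 : -δ + v + 1 * s = s + v - δ := by
    rw [one_mul]
    abel
  rw [h2, h3]

theorem den_T {v : D} (hv : star v = v) (x : U) : 2 * δ - v + v * ((x : Dˣ) : D) ≠ 0 := by
  revert x
  refine h.cases ?_ fun s hs => ?_
  · change 2 * δ - v + v * (1 : D) ≠ 0
    rw [mul_one, sub_add_cancel]
    exact h.two_del_ne
  · rw [coe_cayU]
    intro h0
    have h1 : 2 * δ * (s + v - δ) = (2 * δ - v + v * cay δ s) * (s - δ) := by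
      unfold cay
      rw [add_mul, mul_assoc v, mul_assoc (s + δ), inv_mul_cancel₀ (h.sub_ne hs), mul_one]
      simp only [mul_add, add_mul, mul_sub, sub_mul, two_mul, h.comm v]
      abel
    rw [h0, zero_mul] at h1
    rcases mul_eq_zero.mp h1 with h2 | h2
    · exact h.two_del_ne h2
    · exact h.sub_ne (s := s + v) (by rw [star_add, hs, hv]) h2

/-- `T v` as a fractional linear map. -/
theorem coe_T {v : D} (hv : star v = v) (x : U) :
    ((h.T v x : Dˣ) : D) = mob (2 * δ - v) v (-v) (2 * δ + v) ((x : Dˣ) : D) := by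
  revert x
  refine h.cases ?_ fun s hs => ?_
  · rw [T_apply_one]
    change (1 : D) = mob _ _ _ _ (1 : D)
    unfold mob
    rw [mul_one, mul_one, sub_add_cancel, neg_add_eq_sub, add_sub_cancel_right,
      mul_inv_cancel₀ h.two_del_ne]
  · rw [h.T_apply_cay hv hs, coe_cayU, coe_cayU, h.mob_T_cay hs]

/-- `W e` as a fractional linear map. -/
theorem mob_W_cay {e s : D} (he : e ≠ 0) (hs : star s = s) :
    mob (e + (star e)⁻¹) (e - (star e)⁻¹) (e - (star e)⁻¹) (e + (star e)⁻¹) (cay δ s) =
      cay δ (e * s * star e) := by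
  have hse := star_ne he
  have h1 : mob (e + (star e)⁻¹) (e - (star e)⁻¹) (e - (star e)⁻¹) (e + (star e)⁻¹) (cay δ s) =
      mob (2 * -((star e)⁻¹ * δ)) (2 * e) (2 * ((star e)⁻¹ * δ)) (2 * e) s := by
    rw [cay_eq_mob, mob_mob (h.den_cay hs)]
    congr 1
    · rw [two_mul, mul_neg, add_mul, sub_mul]
      abel
    · rw [two_mul, mul_one, mul_one]
      abel
    · rw [two_mul, mul_neg, add_mul, sub_mul]
      abel
    · rw [two_mul, mul_one, mul_one]
      abel
  rw [h1, mob_smul (fun x => by rw [two_mul, mul_two]) h.two]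
  unfold mob cay
  have h2 : e * s * star e + δ = ((star e)⁻¹ * δ + e * s) * star e := by
    rw [add_mul, mul_assoc _ δ, h.comm (star e), ← mul_assoc, inv_mul_cancel₀ hse, one_mul,
      add_comm]
  have h3 : e * s * star e - δ = (-((star e)⁻¹ * δ) + e * s) * star e := by
    rw [add_mul, neg_mul, mul_assoc _ δ, h.comm (star e), ← mul_assoc, inv_mul_cancel₀ hse,
      one_mul, neg_add_eq_sub]
  rw [h2, h3, mul_inv_rev, mul_assoc _ (star e), ← mul_assoc (star e), mul_inv_cancel₀ hse,
    one_mul]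

theorem den_W {e : D} (he : e ≠ 0) (x : U) :
    e + (star e)⁻¹ + (e - (star e)⁻¹) * ((x : Dˣ) : D) ≠ 0 := by
  have hse := star_ne he
  revert x
  refine h.cases ?_ fun s hs => ?_
  · change e + (star e)⁻¹ + (e - (star e)⁻¹) * (1 : D) ≠ 0
    rw [mul_one, add_add_sub_cancel, ← two_mul]
    exact mul_ne_zero h.two he
  · rw [coe_cayU]
    intro h0
    have h1 : 2 * (e * s * star e - δ) =
        (e + (star e)⁻¹ + (e - (star e)⁻¹) * cay δ s) * (s - δ) * star e := by
      unfold cay
      have h2 : (e + (star e)⁻¹ + (e - (star e)⁻¹) * ((s + δ) * (s - δ)⁻¹)) * (s - δ) =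
          2 * (e * s - (star e)⁻¹ * δ) := by
        rw [add_mul, mul_assoc (e - (star e)⁻¹), mul_assoc (s + δ), inv_mul_cancel₀ (h.sub_ne hs),
          mul_one, mul_sub, mul_add, add_mul, add_mul, sub_mul, sub_mul, two_mul]
        abel
      rw [h2, mul_assoc 2, sub_mul, mul_assoc (star e)⁻¹, h.comm, ← mul_assoc (star e)⁻¹,
        inv_mul_cancel₀ hse, one_mul]
    rw [h0, zero_mul, zero_mul] at h1
    rcases mul_eq_zero.mp h1 with h2 | h2
    · exact h.two h2
    · exact h.sub_ne (star_conj e hs) h2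

theorem coe_W {e : D} (he : e ≠ 0) (x : U) :
    ((h.W e x : Dˣ) : D) =
      mob (e + (star e)⁻¹) (e - (star e)⁻¹) (e - (star e)⁻¹) (e + (star e)⁻¹) ((x : Dˣ) : D) := by
  have hse := star_ne he
  revert x
  refine h.cases ?_ fun s hs => ?_
  · rw [W_apply_one]
    change (1 : D) = mob _ _ _ _ (1 : D)
    unfold mob
    rw [mul_one, mul_one, add_add_sub_cancel, sub_add_add_cancel,
      mul_inv_cancel₀ (by rw [← two_mul]; exact mul_ne_zero h.two he)]
  · rw [h.W_apply_cay he hs, coe_cayU, coe_cayU, h.mob_W_cay he hs]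

omit [StarRing D] h in
theorem coe_L_mob (u x : D) : u * x = mob 1 0 0 u x := by
  unfold mob
  rw [zero_mul, add_zero, inv_one, mul_one, zero_add]

end Chart

end Vale.Agent.P011.H674.Pair
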