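import Vale.Agent.P011.H674.Lift
import Mathlib.Algebra.Star.Basic
import Mathlib.GroupTheory.Commutator.Basic
import Mathlib.Logic.Equiv.Option
import Mathlib.Tactic.FieldSimp
import Mathlib.Tactic.Ring
import Mathlib.Tactic.NoncommRing

/-!
**The permutations `L`, `T`, `W` of the unitary group.** `D` a division ring with involution, `δ`
central and antisymmetric. The Cayley map `s ↦ (s + δ) (s - δ)⁻¹` identifies the symmetric elements
with the unitary elements different from one. The permutations `T v` (`v` symmetric) and `W e`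
(`e ≠ 0`) are `cay s ↦ cay (s + v)` and `cay s ↦ cay (e s e*)`, both fix one.
-/

namespace Vale.Agent.P011.H674.Pair

universe u

section mob

variable {D : Type u} [DivisionRing D]

/-- The fractional linear map `y ↦ (c + e y) (a + b y)⁻¹`. -/
def mob (a b c e y : D) : D := (c + e * y) * (a + b * y)⁻¹

theorem mob_mob {a b c e a' b' c' e' y : D} (h : a + b * y ≠ 0) :
    mob a' b' c' e' (mob a b c e y) =
      mob (a' * a + b' * c) (a' * b + b' * e) (c' * a + e' * c) (c' * b + e' * e) y := by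
  have key : ∀ p q : D, p + q * ((c + e * y) * (a + b * y)⁻¹) =
      ((p * a + q * c) + (p * b + q * e) * y) * (a + b * y)⁻¹ := by
    intro p q
    have h1 : p = p * (a + b * y) * (a + b * y)⁻¹ := by
      rw [mul_assoc, mul_inv_cancel₀ h, mul_one]
    calc p + q * ((c + e * y) * (a + b * y)⁻¹)
        = p * (a + b * y) * (a + b * y)⁻¹ + q * (c + e * y) * (a + b * y)⁻¹ := by
          rw [← h1, mul_assoc]
      _ = ((p * a + q * c) + (p * b + q * e) * y) * (a + b * y)⁻¹ := by
          rw [← add_mul]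
          congr 1
          noncomm_ring
  unfold mob
  rw [key, key, mul_inv_rev, inv_inv, mul_assoc, ← mul_assoc (a + b * y)⁻¹,
    inv_mul_cancel₀ h, one_mul]

theorem mob_smul {z : D} (hz : ∀ x, z * x = x * z) (h0 : z ≠ 0) (a b c e y : D) :
    mob (z * a) (z * b) (z * c) (z * e) y = mob a b c e y := by
  unfold mob
  rw [mul_assoc z b, mul_assoc z e, ← mul_add, ← mul_add, mul_inv_rev, hz (c + e * y), mul_assoc,
    ← mul_assoc z, hz, mul_assoc (a + b * y)⁻¹, mul_inv_cancel₀ h0, mul_one]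

/-- The Cayley map. -/
def cay (δ s : D) : D := (s + δ) * (s - δ)⁻¹

/-- The inverse of the Cayley map. -/
def yac (δ y : D) : D := (y + 1) * (y - 1)⁻¹ * δ

theorem yac_cay_aux {s δ : D} (hc : δ * s = s * δ) (h1 : s - δ ≠ 0) (h2 : (2 : D) ≠ 0)
    (h3 : δ ≠ 0) : yac δ (cay δ s) = s := by
  obtain ⟨E, _, φ, s', δ', rfl, rfl⟩ := exists_lift2 s δ hc.symm
  have e1 : s' - δ' ≠ 0 := fun h0 => h1 (by rw [← map_sub, h0, map_zero])
  have e2 : (2 : E) ≠ 0 := fun h0 => h2 (by rw [← map_ofNat φ 2, h0, map_zero])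
  have e3 : δ' ≠ 0 := fun h0 => h3 (by rw [h0, map_zero])
  have key : ((s' + δ') * (s' - δ')⁻¹ + 1) * ((s' + δ') * (s' - δ')⁻¹ - 1)⁻¹ * δ' = s' := by
    have e4 : (s' + δ') * (s' - δ')⁻¹ - 1 = 2 * δ' * (s' - δ')⁻¹ := by
      field_simp
      ring
    rw [e4]
    field_simp
    ring
  simpa [yac, cay] using congrArg φ key

theorem cay_yac_aux {y δ : D} (hc : δ * y = y * δ) (h1 : y ≠ 1) (h2 : (2 : D) ≠ 0)
    (h3 : δ ≠ 0) : cay δ (yac δ y) = y := by
  obtain ⟨E, _, φ, y', δ', rfl, rfl⟩ := exists_lift2 y δ hc.symm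
  have e1 : y' - 1 ≠ 0 := fun h0 => h1 (by rw [sub_eq_zero.mp h0, map_one])
  have e2 : (2 : E) ≠ 0 := fun h0 => h2 (by rw [← map_ofNat φ 2, h0, map_zero])
  have e3 : δ' ≠ 0 := fun h0 => h3 (by rw [h0, map_zero])
  have key : ((y' + 1) * (y' - 1)⁻¹ * δ' + δ') * ((y' + 1) * (y' - 1)⁻¹ * δ' - δ')⁻¹ = y' := by
    have e4 : (y' + 1) * (y' - 1)⁻¹ * δ' - δ' = 2 * δ' * (y' - 1)⁻¹ := by
      field_simp
      ring
    rw [e4]
    field_simp
    ring
  simpa [yac, cay] using congrArg φ key

end mob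

variable {D : Type u} [DivisionRing D] [StarRing D]

/-- `U` is the group of the unitary elements of `D`, `δ` is central and antisymmetric, and the
characteristic is not two. -/
structure Chart (U : Subgroup Dˣ) (δ : D) : Prop where
  mem_iff : ∀ g : Dˣ, g ∈ U ↔ (g : D) * star (g : D) = 1
  comm : ∀ x : D, δ * x = x * δ
  star_del : star δ = -δ
  two : (2 : D) ≠ 0
  ne : δ ≠ 0

/-- The symmetric elements. -/
abbrev Sy (D : Type u) [DivisionRing D] [StarRing D] : Type u := {s : D // star s = s}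

namespace Chart

variable {U : Subgroup Dˣ} {δ : D} (h : Chart U δ)

include h

theorem mul_star (x : U) : ((x : Dˣ) : D) * star ((x : Dˣ) : D) = 1 := (h.mem_iff _).mp x.2

theorem star_eq (x : U) : star ((x : Dˣ) : D) = ((x : Dˣ) : D)⁻¹ :=
  eq_inv_of_mul_eq_one_right (h.mul_star x)

theorem add_ne {s : D} (hs : star s = s) : s + δ ≠ 0 := by
  intro h0
  have h1 : s = -δ := eq_neg_of_add_eq_zero_left h0
  have h2 : star s = δ := by rw [h1, star_neg, h.star_del, neg_neg]
  have h3 : s = δ := hs.symm.trans h2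
  have h4 : (2 : D) * δ = 0 := by
    rw [two_mul]
    nth_rewrite 1 [← h3]
    exact h0
  exact (mul_ne_zero h.two h.ne) h4

theorem sub_ne {s : D} (hs : star s = s) : s - δ ≠ 0 := by
  intro h0
  apply h.add_ne (s := -s) (by rw [star_neg, hs])
  rw [← neg_eq_zero, neg_add, neg_neg, ← sub_eq_add_neg]
  exact h0

theorem comm_add (s : D) : (s + δ) * (s - δ) = (s - δ) * (s + δ) := by
  rw [add_mul, mul_sub, mul_sub, h.comm s, sub_mul, mul_add, mul_add, h.comm s]
  abel

theorem star_add' {s : D} (hs : star s = s) : star (s + δ) = s - δ := by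
  rw [star_add, hs, h.star_del, sub_eq_add_neg]

theorem star_sub' {s : D} (hs : star s = s) : star (s - δ) = s + δ := by
  rw [star_sub, hs, h.star_del, sub_neg_eq_add]

theorem cay_ne_zero {s : D} (hs : star s = s) : cay δ s ≠ 0 :=
  mul_ne_zero (h.add_ne hs) (inv_ne_zero (h.sub_ne hs))

theorem cay_mul_star {s : D} (hs : star s = s) : cay δ s * star (cay δ s) = 1 := by
  unfold cay
  rw [star_mul, star_inv₀, h.star_add' hs, h.star_sub' hs, mul_assoc, ← mul_assoc (s - δ)⁻¹]
  have h1 : (s - δ)⁻¹ * (s + δ)⁻¹ = (s + δ)⁻¹ * (s - δ)⁻¹ := by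
    rw [← mul_inv_rev, ← mul_inv_rev, h.comm_add]
  rw [h1, mul_assoc, inv_mul_cancel₀ (h.sub_ne hs), mul_one, mul_inv_cancel₀ (h.add_ne hs)]

/-- The Cayley map as a map to the group `U`. -/
def cayU {s : D} (hs : star s = s) : U :=
  ⟨Units.mk0 (cay δ s) (h.cay_ne_zero hs), (h.mem_iff _).mpr (h.cay_mul_star hs)⟩

@[simp] theorem coe_cayU {s : D} (hs : star s = s) : ((h.cayU hs : Dˣ) : D) = cay δ s := rfl

theorem cay_ne_one {s : D} (hs : star s = s) : cay δ s ≠ 1 := by
  intro h0
  unfold cay at h0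
  have h1 : s + δ = s - δ := by
    have := congrArg (· * (s - δ)) h0
    simpa [mul_assoc, inv_mul_cancel₀ (h.sub_ne hs)] using this
  have h2 : (2 : D) * δ = 0 := by
    rw [sub_eq_add_neg] at h1
    have h3 : δ = -δ := add_left_cancel h1
    rw [two_mul]
    nth_rewrite 2 [h3]
    exact add_neg_cancel δ
  exact (mul_ne_zero h.two h.ne) h2

theorem cayU_ne_one {s : D} (hs : star s = s) : h.cayU hs ≠ 1 := by
  intro h0
  exact h.cay_ne_one hs (congrArg (fun x : U => ((x : Dˣ) : D)) h0)

theorem yac_cay {s : D} (hs : star s = s) : yac δ (cay δ s) = s :=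
  yac_cay_aux (h.comm s) (h.sub_ne hs) h.two h.ne

theorem star_yac (x : U) : star (yac δ ((x : Dˣ) : D)) = yac δ ((x : Dˣ) : D) := by
  have h1 : star (yac δ ((x : Dˣ) : D)) =
      -δ * ((((x : Dˣ) : D)⁻¹ - 1)⁻¹ * (((x : Dˣ) : D)⁻¹ + 1)) := by
    unfold yac
    rw [star_mul, star_mul, star_inv₀, star_add, star_sub, star_one, h.star_eq, h.star_del]
  rw [h1]
  have h0 : ((x : Dˣ) : D) ≠ 0 := Units.ne_zero _
  generalize ((x : Dˣ) : D) = y at h0
  clear h1
  have hc := h.comm y
  have h2 := h.ne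
  clear h
  obtain ⟨E, _, φ, y', δ', rfl, rfl⟩ := exists_lift2 y δ hc.symm
  have e1 : y' ≠ 0 := fun h3 => h0 (by rw [h3, map_zero])
  have key : -δ' * ((y'⁻¹ - 1)⁻¹ * (y'⁻¹ + 1)) = (y' + 1) * (y' - 1)⁻¹ * δ' := by
    have e2 : y'⁻¹ - 1 = -(y' - 1) * y'⁻¹ := by
      field_simp
      ring
    have e3 : y'⁻¹ + 1 = (y' + 1) * y'⁻¹ := by
      field_simp
      ring
    rw [e2, e3, mul_inv_rev, inv_inv, inv_neg]
    have e4 : -δ' * (y' * -(y' - 1)⁻¹ * ((y' + 1) * y'⁻¹)) =
      (y' + 1) * (y' - 1)⁻¹ * δ' * (y' * y'⁻¹) := by ring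
    rw [e4, mul_inv_cancel₀ e1, mul_one]
  simpa [yac] using congrArg φ key

theorem cay_yac {y : D} (hy : y ≠ 1) : cay δ (yac δ y) = y :=
  cay_yac_aux (h.comm y) hy h.two h.ne

open Classical in
/-- The unitary elements are the symmetric elements and one point at infinity. -/
noncomputable def equiv : U ≃ Option (Sy D) where
  toFun x := if x = 1 then none else some ⟨yac δ ((x : Dˣ) : D), h.star_yac x⟩
  invFun o := o.elim 1 fun s => h.cayU s.2
  left_inv x := by
    by_cases hx : x = 1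
    · simp [hx]
    · simp only [hx, if_false, Option.elim_some]
      apply Subtype.ext
      apply Units.ext
      rw [coe_cayU]
      exact h.cay_yac fun h0 => hx (Subtype.ext (Units.ext h0))
  right_inv o := by
    cases o with
    | none => simp
    | some s =>
      simp only [Option.elim_some, h.cayU_ne_one, if_false]
      congr 1
      apply Subtype.ext
      exact h.yac_cay s.2

theorem equiv_symm_none : h.equiv.symm none = 1 := rfl

theorem equiv_symm_some (s : Sy D) : h.equiv.symm (some s) = h.cayU s.2 := rfl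

theorem equiv_one : h.equiv 1 = none := by
  rw [← h.equiv_symm_none, Equiv.apply_symm_apply]

theorem equiv_cayU {s : D} (hs : star s = s) : h.equiv (h.cayU hs) = some ⟨s, hs⟩ := by
  rw [← h.equiv_symm_some ⟨s, hs⟩, Equiv.apply_symm_apply]

/-- Induction: a unitary element is one or a value of the Cayley map. -/
theorem cases {p : U → Prop} (h1 : p 1) (h2 : ∀ (s : D) (hs : star s = s), p (h.cayU hs)) (x : U) :
    p x := by
  have := h.equiv.symm_apply_apply x
  rw [← this]
  cases h.equiv x with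
  | none => exact h1
  | some s => exact h2 s s.2

/-- The permutation of `U` which fixes one and is given by a permutation of the symmetric
elements. -/
noncomputable def pm : Equiv.Perm (Sy D) →* Equiv.Perm U where
  toFun f := (h.equiv.trans (Equiv.optionCongr f)).trans h.equiv.symm
  map_one' := by
    ext1 x
    simp [Equiv.Perm.one_def]
  map_mul' f g := by
    ext1 x
    simp only [Equiv.trans_apply, Equiv.Perm.mul_apply, Equiv.apply_symm_apply]
    cases h.equiv x with
    | none => rfl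
    | some s => rfl

theorem pm_one (f : Equiv.Perm (Sy D)) : h.pm f 1 = 1 := by
  change h.equiv.symm (Equiv.optionCongr f (h.equiv 1)) = 1
  rw [equiv_one]
  rfl

theorem pm_cayU (f : Equiv.Perm (Sy D)) {s : D} (hs : star s = s) :
    h.pm f (h.cayU hs) = h.cayU (f ⟨s, hs⟩).2 := by
  change h.equiv.symm (Equiv.optionCongr f (h.equiv _)) = _
  rw [equiv_cayU]
  rfl

end Chart

end Vale.Agent.P011.H674.Pair
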