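import Vale.Agent.P011.H674.KeyStar
import Mathlib.Algebra.Star.SelfAdjoint

/-!
The product relation for a homomorphism from the unitary group of an anisotropic involution to a
group: the colours of two points of the Cayley chart which differ by the translation `vecS`.
-/

namespace Vale.Agent.P011.H674

variable {K A : Type*} [Field K] [StarRing K] [Ring A] [StarRing A] [Algebra K A]
  [StarModule K A]

/-- The Cayley transform of a symmetric element. -/
noncomputable def cayS (hA : AnisoRing A) {θ : K} (hθ : θ - star θ ≠ 0) (s : selfAdjoint A) :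
    unitary A :=
  cayU hA hθ (s : A) (selfAdjoint.mem_iff.mp s.2)

/-- The translation vector `b (t + t*) - b² (t - t*) / (θ - θ*)`. -/
def vecS (θ : K) {b : K} (hb : star b = b) (t : A) : selfAdjoint A :=
  ⟨vecr θ b t, selfAdjoint.mem_iff.mpr (vecr_star hb t)⟩

theorem coe_vecS (θ : K) {b : K} (hb : star b = b) (t : A) :
    (vecS θ hb t : A) = b • (t + star t) - (b ^ 2 / (θ - star θ)) • (t - star t) := rfl

theorem coe_cayS (hA : AnisoRing A) {θ : K} (hθ : θ - star θ ≠ 0) (s : selfAdjoint A) :
    (cayS hA hθ s : A) =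
      ((s : A) - star θ • (1 : A)) * Ring.inverse ((s : A) - θ • (1 : A)) := rfl

/-- The key identity: `t⁻¹ Y t X` and `t Y t⁻¹ X` are conjugate in the unitary group, with
`X = Cay ξ` and `Y = Cay (ξ + v)`. -/
theorem isConj_key (hA : AnisoRing A) {θ b : K} (hθ : θ - star θ ≠ 0) (hb : star b = b)
    (t : unitary A) (ξ : selfAdjoint A) :
    IsConj (t⁻¹ * cayS hA hθ (ξ + vecS θ hb (t : A)) * t * cayS hA hθ ξ)
      (t * cayS hA hθ (ξ + vecS θ hb (t : A)) * t⁻¹ * cayS hA hθ ξ) := by
  have hξ : star (ξ : A) = ξ := selfAdjoint.mem_iff.mp ξ.2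
  have hv : star ((ξ : A) + vecr θ b (t : A)) = (ξ : A) + vecr θ b (t : A) := by
    rw [star_add, hξ, vecr_star hb]
  obtain ⟨T, hT⟩ := key_unitary hA hθ hb t hξ hv
  rw [isConj_iff]
  refine ⟨T⁻¹, ?_⟩
  have h1 : cayS hA hθ (ξ + vecS θ hb (t : A)) = cayU hA hθ ((ξ : A) + vecr θ b (t : A)) hv :=
    Subtype.ext rfl
  have h2 : cayS hA hθ ξ = cayU hA hθ (ξ : A) hξ := rfl
  rw [h1, h2, inv_inv, mul_assoc T⁻¹, hT, ← mul_assoc T⁻¹, inv_mul_cancel, one_mul]

/-- The product relation for the colours. -/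
theorem colour_rel (hA : AnisoRing A) {θ b : K} (hθ : θ - star θ ≠ 0) (hb : star b = b)
    {R : Type*} [Group R] (c : unitary A →* R) (t : unitary A) (ξ : selfAdjoint A) :
    IsConj ((c t)⁻¹ * c (cayS hA hθ (ξ + vecS θ hb (t : A))) * c t * c (cayS hA hθ ξ))
      (c t * c (cayS hA hθ (ξ + vecS θ hb (t : A))) * (c t)⁻¹ * c (cayS hA hθ ξ)) := by
  have h := c.map_isConj (isConj_key hA hθ hb t ξ)
  simpa only [map_mul, map_inv] using h

/-- The chart is equivariant for the conjugation with unitary elements. -/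
theorem cayS_conj (hA : AnisoRing A) {θ : K} (hθ : θ - star θ ≠ 0) (g : unitary A)
    (s s' : selfAdjoint A) (hs : (s' : A) = (g : A) * (s : A) * star (g : A)) :
    cayS hA hθ s' = g * cayS hA hθ s * g⁻¹ := by
  have hg : star (g : A) * (g : A) = 1 := Unitary.star_mul_self_of_mem g.2
  have hg' : (g : A) * star (g : A) = 1 := Unitary.mul_star_self_of_mem g.2
  have hs' : star (s' : A) = s' := selfAdjoint.mem_iff.mp s'.2
  have hs0 : star (s : A) = s := selfAdjoint.mem_iff.mp s.2
  apply Subtype.ext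
  have h1 := cayr_mul hA hθ hs'
  have h2 := cayr_mul hA hθ hs0
  have e : ∀ a : K, (s' : A) - a • (1 : A) = (g : A) * ((s : A) - a • (1 : A)) * star (g : A) := by
    intro a
    rw [hs, mul_sub, sub_mul, mul_smul_comm, smul_mul_assoc, mul_one, hg']
  have hu := hA.sub_unit hθ hs'
  refine hu.mul_right_cancel ?_
  have h3 : ((g * cayS hA hθ s * g⁻¹ : unitary A) : A) = (g : A) * cayr θ (s : A) * star (g : A) :=
    rfl
  have h4 : ((cayS hA hθ s' : unitary A) : A) = cayr θ (s' : A) := rfl
  rw [h3, h4, h1, e, e]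
  calc (g : A) * ((s : A) - star θ • (1 : A)) * star (g : A)
      = (g : A) * (cayr θ (s : A) * ((s : A) - θ • (1 : A))) * star (g : A) := by rw [h2]
    _ = (g : A) * cayr θ (s : A) * (star (g : A) * (g : A)) * ((s : A) - θ • (1 : A)) *
        star (g : A) := by rw [hg, mul_one]; simp only [mul_assoc]
    _ = _ := by simp only [mul_assoc]

/-- Every unitary element is, up to a scalar of norm one, in the image of the chart: precisely
`u` is in the image as soon as `u - 1` is a unit. -/
theorem exists_cayS (hA : AnisoRing A) {θ : K} (hθ : θ - star θ ≠ 0) (u : unitary A)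
    (hu : IsUnit ((u : A) - 1)) : ∃ s : selfAdjoint A, cayS hA hθ s = u := by
  have hu1 : star (u : A) * (u : A) = 1 := Unitary.star_mul_self_of_mem u.2
  have hu2 : (u : A) * star (u : A) = 1 := Unitary.mul_star_self_of_mem u.2
  obtain ⟨w, hw⟩ := hu
  -- `s = (θ u - θ*) (u - 1)⁻¹`
  obtain ⟨s, hs⟩ : ∃ s : A, s = (θ • (u : A) - star θ • (1 : A)) * (↑w⁻¹ : A) := ⟨_, rfl⟩
  have hc : Commute (θ • (u : A) - star θ • (1 : A)) (w : A) := by
    rw [hw]
    have h1 : Commute (u : A) ((u : A) - 1) := (Commute.refl _).sub_right (Commute.one_right _)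
    exact (h1.smul_left θ).sub_left ((Commute.one_left _).smul_left _)
  have hsw : s * (w : A) = θ • (u : A) - star θ • (1 : A) := by
    rw [hs, mul_assoc, Units.inv_mul, mul_one]
  have hws : (w : A) * s = θ • (u : A) - star θ • (1 : A) := by
    rw [hs, ← mul_assoc, ← hc.eq, mul_assoc, Units.mul_inv, mul_one]
  -- star w = - star u * w
  have hsw' : star (w : A) = -(star (u : A) * (w : A)) := by
    rw [hw, star_sub, star_one, mul_sub, hu1, mul_one]; abel
  have hss : star s = s := by
    have h1 : star (w : A) * star s = star θ • star (u : A) - θ • (1 : A) := by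
      rw [← star_mul, hsw, star_sub, star_smul, star_smul, star_star, star_one]
    have h2 : star (w : A) * s = star θ • star (u : A) - θ • (1 : A) := by
      rw [hsw', neg_mul, mul_assoc, hws, mul_sub, mul_smul_comm, mul_smul_comm, hu1, mul_one]
      abel
    exact (w.isUnit.star).mul_left_cancel (h1.trans h2.symm)
  refine ⟨⟨s, selfAdjoint.mem_iff.mpr hss⟩, ?_⟩
  apply Subtype.ext
  have h1 := cayr_mul hA hθ hss
  have h2 := hA.sub_unit hθ hss
  refine h2.mul_right_cancel (Eq.trans h1 ?_)
  refine w.isUnit.mul_right_cancel ?_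
  have h3 : (s - star θ • (1 : A)) * (w : A) = (θ - star θ) • (u : A) := by
    rw [sub_mul, hsw, smul_mul_assoc, one_mul, hw]; module
  have h4 : (s - θ • (1 : A)) * (w : A) = (θ - star θ) • (1 : A) := by
    rw [sub_mul, hsw, smul_mul_assoc, one_mul, hw]; module
  rw [h3, mul_assoc, h4, mul_smul_comm, mul_one]

end Vale.Agent.P011.H674
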