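import Mathlib.Algebra.Algebra.Basic
import Mathlib.Algebra.Star.Basic
import Mathlib.Algebra.Star.Module
import Mathlib.Algebra.Group.Conj
import Mathlib.Tactic

/-!
The key identity of the Cayley chart of the unitary group of a ring with an anisotropic
involution, in every characteristic: pure algebra over a commutative field `K` acting centrally.
-/

namespace Vale.Agent.P011.H674

section pure

variable {K A : Type*} [Field K] [Ring A] [Algebra K A]

/-- `W = b t + (b + e)`. -/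
def Wr (e b : K) (t : A) : A := b • t + (b + e) • (1 : A)

/-- `E = b - (e - b) t`. -/
def Er (e b : K) (t : A) : A := b • (1 : A) - (e - b) • t

/-- `Δ = e - b / e (E + t⁻¹ W)`. -/
def Dr (e b : K) (t : Aˣ) : A :=
  e • (1 : A) - (b / e) • (Er e b (t : A) + (↑t⁻¹ : A) * Wr e b (t : A))

theorem Wr_comm (e b : K) (t : A) : Commute t (Wr e b t) := by
  unfold Wr
  exact ((Commute.refl t).smul_right b).add_right ((Commute.one_right t).smul_right _)

theorem Er_comm (e b : K) (t : A) : Commute t (Er e b t) := by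
  unfold Er
  exact ((Commute.one_right t).smul_right _).sub_right ((Commute.refl t).smul_right _)

theorem WEr_comm (e b : K) (t : A) : Commute (Wr e b t) (Er e b t) := by
  unfold Er
  exact ((Commute.one_right _).smul_right _).sub_right ((Wr_comm e b t).symm.smul_right _)

/-- The basic relation `e t Δ = - W E`. -/
theorem tDr {e b : K} {t : Aˣ} (he : e ≠ 0) :
    e • ((t : A) * Dr e b t) = -(Wr e b (t : A) * Er e b (t : A)) := by
  have h1 : (t : A) * Dr e b t = e • (t : A) - (b / e) • ((t : A) * Er e b (t : A) + Wr e b (t : A)) := by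
    unfold Dr
    rw [mul_sub, mul_smul_comm, mul_one, mul_smul_comm, mul_add, ← mul_assoc (t : A) (↑t⁻¹ : A),
      Units.mul_inv, one_mul]
  rw [h1, smul_sub, smul_smul, smul_smul, mul_div_cancel₀ _ he]
  unfold Wr Er
  simp only [add_mul, mul_sub, smul_mul_assoc, mul_smul_comm, mul_one, one_mul]
  module

/-- `t⁻¹ W = b + (b + e) t⁻¹`. -/
theorem invt_Wr (e b : K) (t : Aˣ) :
    (↑t⁻¹ : A) * Wr e b (t : A) = b • (1 : A) + (b + e) • (↑t⁻¹ : A) := by
  unfold Wr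
  rw [mul_add, mul_smul_comm, Units.inv_mul, mul_smul_comm, mul_one]

/-- `t⁻¹ E = b t⁻¹ - (e - b)`. -/
theorem invt_Er (e b : K) (t : Aˣ) :
    (↑t⁻¹ : A) * Er e b (t : A) = b • (↑t⁻¹ : A) - (e - b) • (1 : A) := by
  unfold Er
  rw [mul_sub, mul_smul_comm, mul_smul_comm, Units.inv_mul, mul_one]

theorem Dr_eq (e b : K) (t : Aˣ) :
    Dr e b t = (e - 2 * b * (b / e)) • (1 : A) + ((e - b) * (b / e)) • (t : A)
      - ((b + e) * (b / e)) • (↑t⁻¹ : A) := by
  unfold Dr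
  rw [invt_Wr e b t]
  unfold Er
  module

theorem Dr_eq' {e b : K} {t : Aˣ} (he : e ≠ 0) :
    Dr e b t = -(e⁻¹ • ((↑t⁻¹ : A) * (Wr e b (t : A) * Er e b (t : A)))) := by
  have h := tDr (b := b) (t := t) he
  have h2 : (t : A) * Dr e b t = -(e⁻¹ • (Wr e b (t : A) * Er e b (t : A))) := by
    rw [← smul_neg, ← h, smul_smul, inv_mul_cancel₀ he, one_smul]
  have h3 : (↑t⁻¹ : A) * ((t : A) * Dr e b t) = Dr e b t := by
    rw [← mul_assoc, Units.inv_mul, one_mul]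
  rw [← h3, h2, mul_neg, mul_smul_comm]

theorem invEr_D {e b : K} {t E : Aˣ} (he : e ≠ 0) (hE : (E : A) = Er e b (t : A)) :
    (↑E⁻¹ : A) * Dr e b t = -(e⁻¹ • (b • (1 : A) + (b + e) • (↑t⁻¹ : A))) := by
  have hc : (↑E⁻¹ : A) * ((↑t⁻¹ : A) * (Wr e b (t : A) * Er e b (t : A))) =
      (↑t⁻¹ : A) * Wr e b (t : A) := by
    have h4 : Commute (Er e b (t : A)) ((↑t⁻¹ : A) * Wr e b (t : A)) :=
      ((Er_comm e b (t : A)).symm.units_inv_right).mul_right (WEr_comm e b (t : A)).symm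
    rw [← mul_assoc (↑t⁻¹ : A), ← h4.eq, ← hE, ← mul_assoc, Units.inv_mul, one_mul]
  rw [Dr_eq' he, mul_neg, mul_smul_comm, hc, invt_Wr e b t]

theorem invWr_D {e b : K} {t W : Aˣ} (he : e ≠ 0) (hW : (W : A) = Wr e b (t : A)) :
    (↑W⁻¹ : A) * Dr e b t = -(e⁻¹ • (b • (↑t⁻¹ : A) - (e - b) • (1 : A))) := by
  have hc : (↑W⁻¹ : A) * ((↑t⁻¹ : A) * (Wr e b (t : A) * Er e b (t : A))) =
      (↑t⁻¹ : A) * Er e b (t : A) := by
    have h4 : Commute (Wr e b (t : A)) ((↑t⁻¹ : A) * Er e b (t : A)) :=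
      ((Wr_comm e b (t : A)).symm.units_inv_right).mul_right (WEr_comm e b (t : A))
    rw [(WEr_comm e b (t : A)).eq, ← mul_assoc (↑t⁻¹ : A), ← h4.eq, ← hW, ← mul_assoc,
      Units.inv_mul, one_mul]
  rw [Dr_eq' he, mul_neg, mul_smul_comm, hc, invt_Er e b t]

/-- First quadratic identity. -/
theorem quadr2 {e b : K} {t W E : Aˣ} {G Gs : A} (he : e ≠ 0) (hW : (W : A) = Wr e b (t : A))
    (hE : (E : A) = Er e b (t : A)) (hG : G - Gs = Dr e b t) :
    (G * (↑W⁻¹ : A) + (b / e) • (↑t⁻¹ : A)) * (b • ((t : A) * G) + (b + e) • Gs) =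
      (Gs * (↑E⁻¹ : A) - (b / e) • (1 : A)) * (b • Gs - (e - b) • ((t : A) * G)) := by
  have h1 : b • ((t : A) * G) + (b + e) • Gs = W * G - (b + e) • Dr e b t := by
    rw [← hG, hW]
    unfold Wr
    rw [add_mul, smul_mul_assoc, smul_mul_assoc, one_mul]
    module
  have h2 : b • Gs - (e - b) • ((t : A) * G) = E * G - b • Dr e b t := by
    rw [← hG, hE]
    unfold Er
    rw [sub_mul, smul_mul_assoc, smul_mul_assoc, one_mul]
    module
  have h3 : (↑W⁻¹ : A) * (b • ((t : A) * G) + (b + e) • Gs) =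
      G + ((b + e) * e⁻¹) • (b • (↑t⁻¹ : A) - (e - b) • (1 : A)) := by
    rw [h1, mul_sub, ← mul_assoc, Units.inv_mul, one_mul, mul_smul_comm, invWr_D he hW]
    module
  have h4 : (↑E⁻¹ : A) * (b • Gs - (e - b) • ((t : A) * G)) =
      G + (b * e⁻¹) • (b • (1 : A) + (b + e) • (↑t⁻¹ : A)) := by
    rw [h2, mul_sub, ← mul_assoc, Units.inv_mul, one_mul, mul_smul_comm, invEr_D he hE]
    module
  have h5 : Gs = G - Dr e b t := by rw [← hG]; abel
  rw [add_mul, sub_mul, mul_assoc, h3, mul_assoc, h4, h5, Dr_eq e b t]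
  simp only [mul_add, add_mul, mul_sub, sub_mul, smul_mul_assoc, mul_smul_comm, mul_one, one_mul,
    smul_smul, smul_add, smul_sub, ← mul_assoc, Units.inv_mul, Units.mul_inv]
  match_scalars <;> field_simp <;> ring

/-- Second quadratic identity. -/
theorem quadr1 {e b : K} {t W E : Aˣ} {G Gs : A} (he : e ≠ 0) (hW : (W : A) = Wr e b (t : A))
    (hE : (E : A) = Er e b (t : A)) (hG : G - Gs = Dr e b t) :
    (G * (↑E⁻¹ : A) + (b / e) • (1 : A)) * (b • G - (e - b) • ((t : A) * Gs)) =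
      (Gs * (↑W⁻¹ : A) - (b / e) • (↑t⁻¹ : A)) * (b • ((t : A) * Gs) + (b + e) • G) := by
  have h1 : b • ((t : A) * Gs) + (b + e) • G = W * Gs + (b + e) • Dr e b t := by
    rw [← hG, hW]
    unfold Wr
    rw [add_mul, smul_mul_assoc, smul_mul_assoc, one_mul]
    module
  have h2 : b • G - (e - b) • ((t : A) * Gs) = E * Gs + b • Dr e b t := by
    rw [← hG, hE]
    unfold Er
    rw [sub_mul, smul_mul_assoc, smul_mul_assoc, one_mul]
    module
  have h3 : (↑W⁻¹ : A) * (b • ((t : A) * Gs) + (b + e) • G) =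
      Gs - ((b + e) * e⁻¹) • (b • (↑t⁻¹ : A) - (e - b) • (1 : A)) := by
    rw [h1, mul_add, ← mul_assoc, Units.inv_mul, one_mul, mul_smul_comm, invWr_D he hW]
    module
  have h4 : (↑E⁻¹ : A) * (b • G - (e - b) • ((t : A) * Gs)) =
      Gs - (b * e⁻¹) • (b • (1 : A) + (b + e) • (↑t⁻¹ : A)) := by
    rw [h2, mul_add, ← mul_assoc, Units.inv_mul, one_mul, mul_smul_comm, invEr_D he hE]
    module
  have h5 : G = Gs + Dr e b t := by rw [← hG]; abel
  rw [add_mul, sub_mul, mul_assoc, h4, mul_assoc, h3, h5, Dr_eq e b t]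
  simp only [mul_add, add_mul, mul_sub, sub_mul, smul_mul_assoc, mul_smul_comm, mul_one, one_mul,
    smul_smul, smul_add, smul_sub, ← mul_assoc, Units.inv_mul, Units.mul_inv]
  match_scalars <;> field_simp <;> ring

/-- Two elements linked by a Moebius transformation with central coefficients commute. -/
theorem comm_moebius_r {Z R : A} {α β γ κ : K} (h0 : IsUnit (α • R + β • (1 : A)))
    (h : Z * (α • R + β • (1 : A)) = γ • R + κ • (1 : A)) : Commute Z R := by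
  obtain ⟨u, hu⟩ := h0
  have h1 : Z = (γ • R + κ • (1 : A)) * (↑u⁻¹ : A) := by
    rw [← h, ← hu, mul_assoc, Units.mul_inv, mul_one]
  have h2 : Commute R (γ • R + κ • (1 : A)) :=
    ((Commute.refl R).smul_right γ).add_right ((Commute.one_right R).smul_right κ)
  have h3 : Commute R (u : A) := by
    rw [hu]
    exact ((Commute.refl R).smul_right α).add_right ((Commute.one_right R).smul_right β)
  rw [h1]
  exact (h2.mul_right h3.units_inv_right).symm

/-- `t T t` commutes with `Y E W⁻¹`. -/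
theorem F2r {e b : K} {t W E Gs : Aˣ} {G Y : A} (he : e ≠ 0) (hW : (W : A) = Wr e b (t : A))
    (hE : (E : A) = Er e b (t : A)) (hG : G - Gs = Dr e b t)
    (hY0 : IsUnit ((Gs : A) - (b / e) • (E : A)))
    (hU : IsUnit (b • ((t : A) * G * (↑Gs⁻¹ : A)) + (b + e) • (1 : A)))
    (hY : ((Gs : A) - (b / e) • (E : A)) * Y = G + (b / e) • ((↑t⁻¹ : A) * (W : A))) :
    Commute ((t : A) * ((↑E⁻¹ : A) * G * (↑Gs⁻¹ : A) * (↑t⁻¹ : A) * (E : A)) * (t : A))
      (Y * ((E : A) * (↑W⁻¹ : A))) := by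
  have hq := quadr2 he hW hE hG
  have htE : Commute (t : A) (E : A) := by rw [hE]; exact Er_comm e b (t : A)
  have htW : Commute (t : A) (W : A) := by rw [hW]; exact Wr_comm e b (t : A)
  have hWE : Commute (W : A) (E : A) := by rw [hE, hW]; exact WEr_comm e b (t : A)
  obtain ⟨R, hR⟩ : ∃ R : A, R = (t : A) * G * (↑Gs⁻¹ : A) := ⟨_, rfl⟩
  obtain ⟨Z, hZ⟩ : ∃ Z : A, Z = (E : A) * Y * (↑W⁻¹ : A) := ⟨_, rfl⟩
  rw [← hR] at hU
  have h2 : ((Gs : A) * (↑E⁻¹ : A) - (b / e) • (1 : A)) * (E : A) =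
      (Gs : A) - (b / e) • (E : A) := by
    rw [sub_mul, mul_assoc, Units.inv_mul, mul_one, smul_mul_assoc, one_mul]
  have h1 : ((Gs : A) * (↑E⁻¹ : A) - (b / e) • (1 : A)) * Z =
      G * (↑W⁻¹ : A) + (b / e) • (↑t⁻¹ : A) := by
    rw [hZ, ← mul_assoc, ← mul_assoc, h2, hY, add_mul, smul_mul_assoc, mul_assoc (↑t⁻¹ : A),
      Units.mul_inv, mul_one]
  have h0 : IsUnit ((Gs : A) * (↑E⁻¹ : A) - (b / e) • (1 : A)) := by
    rw [← h2] at hY0
    exact (Units.isUnit_mul_units _ E).mp hY0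
  have h3 : (b • ((t : A) * G) + (b + e) • (Gs : A)) =
      (b • R + (b + e) • (1 : A)) * (Gs : A) := by
    rw [hR, add_mul, smul_mul_assoc, smul_mul_assoc, one_mul, mul_assoc _ _ (Gs : A),
      Units.inv_mul, mul_one]
  have h4 : (b • (Gs : A) - (e - b) • ((t : A) * G)) =
      (b • (1 : A) - (e - b) • R) * (Gs : A) := by
    rw [hR, sub_mul, smul_mul_assoc, smul_mul_assoc, one_mul, mul_assoc _ _ (Gs : A),
      Units.inv_mul, mul_one]
  rw [h3, h4, ← mul_assoc, ← mul_assoc] at hq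
  have h5 := Gs.isUnit.mul_right_cancel hq
  rw [← h1, mul_assoc] at h5
  have h6 : Z * (b • R + (b + e) • (1 : A)) = b • (1 : A) - (e - b) • R :=
    h0.mul_left_cancel h5
  have h7 : Z * (b • R + (b + e) • (1 : A)) = (-(e - b)) • R + b • (1 : A) := by
    rw [h6]; module
  have hc : Commute Z R := comm_moebius_r hU h7
  have hA : (t : A) * ((↑E⁻¹ : A) * G * (↑Gs⁻¹ : A) * (↑t⁻¹ : A) * (E : A)) * (t : A) =
      (↑E⁻¹ : A) * R * (E : A) := by
    rw [hR]
    have e1 : (t : A) * (↑E⁻¹ : A) = (↑E⁻¹ : A) * (t : A) := htE.units_inv_right.eq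
    have e2 : (↑t⁻¹ : A) * (E : A) = (E : A) * (↑t⁻¹ : A) := (htE.units_inv_left).eq
    calc (t : A) * ((↑E⁻¹ : A) * G * (↑Gs⁻¹ : A) * (↑t⁻¹ : A) * (E : A)) * (t : A)
        = ((t : A) * (↑E⁻¹ : A)) * G * (↑Gs⁻¹ : A) * ((↑t⁻¹ : A) * (E : A)) * (t : A) := by
          simp only [mul_assoc]
      _ = (↑E⁻¹ : A) * ((t : A) * G * (↑Gs⁻¹ : A)) * (E : A) * ((↑t⁻¹ : A) * (t : A)) := by
          rw [e1, e2]; simp only [mul_assoc]
      _ = _ := by rw [Units.inv_mul, mul_one]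
  have hB : Y * ((E : A) * (↑W⁻¹ : A)) = (↑E⁻¹ : A) * Z * (E : A) := by
    rw [hZ]
    have e1 : (↑W⁻¹ : A) * (E : A) = (E : A) * (↑W⁻¹ : A) := (hWE.units_inv_left).eq
    calc Y * ((E : A) * (↑W⁻¹ : A)) = ((↑E⁻¹ : A) * (E : A)) * Y * ((↑W⁻¹ : A) * (E : A)) := by
          rw [Units.inv_mul, one_mul, e1]
      _ = _ := by simp only [mul_assoc]
  rw [hA, hB]
  change ((↑E⁻¹ : A) * R * (E : A)) * ((↑E⁻¹ : A) * Z * (E : A)) =
    ((↑E⁻¹ : A) * Z * (E : A)) * ((↑E⁻¹ : A) * R * (E : A))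
  calc ((↑E⁻¹ : A) * R * (E : A)) * ((↑E⁻¹ : A) * Z * (E : A))
      = (↑E⁻¹ : A) * R * ((E : A) * (↑E⁻¹ : A)) * Z * (E : A) := by simp only [mul_assoc]
    _ = (↑E⁻¹ : A) * (R * Z) * (E : A) := by
        rw [Units.mul_inv, mul_one]; simp only [mul_assoc]
    _ = (↑E⁻¹ : A) * Z * ((E : A) * (↑E⁻¹ : A)) * R * (E : A) := by
        rw [hc.symm.eq, Units.mul_inv, mul_one]; simp only [mul_assoc]
    _ = _ := by simp only [mul_assoc]

/-- `T` commutes with `W E⁻¹ X`. -/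
theorem F1r {e b : K} {t W E Gs : Aˣ} {G X : A} (he : e ≠ 0) (hW : (W : A) = Wr e b (t : A))
    (hE : (E : A) = Er e b (t : A)) (hG : G - Gs = Dr e b t)
    (hX0 : IsUnit ((Gs : A) - (b / e) • ((↑t⁻¹ : A) * (W : A))))
    (hU : IsUnit (b • (G * (↑Gs⁻¹ : A) * (↑t⁻¹ : A)) + (-(e - b)) • (1 : A)))
    (hX : ((Gs : A) - (b / e) • ((↑t⁻¹ : A) * (W : A))) * X = G + (b / e) • (E : A)) :
    Commute ((↑E⁻¹ : A) * G * (↑Gs⁻¹ : A) * (↑t⁻¹ : A) * (E : A))
      ((W : A) * (↑E⁻¹ : A) * X) := by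
  have hq := quadr1 he hW hE hG
  have hWE : Commute (W : A) (E : A) := by rw [hE, hW]; exact WEr_comm e b (t : A)
  obtain ⟨R, hR⟩ : ∃ R : A, R = G * (↑Gs⁻¹ : A) * (↑t⁻¹ : A) := ⟨_, rfl⟩
  obtain ⟨Z, hZ⟩ : ∃ Z : A, Z = (W : A) * X * (↑E⁻¹ : A) := ⟨_, rfl⟩
  rw [← hR] at hU
  have h2 : ((Gs : A) * (↑W⁻¹ : A) - (b / e) • (↑t⁻¹ : A)) * (W : A) =
      (Gs : A) - (b / e) • ((↑t⁻¹ : A) * (W : A)) := by
    rw [sub_mul, mul_assoc, Units.inv_mul, mul_one, smul_mul_assoc]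
  have h1 : ((Gs : A) * (↑W⁻¹ : A) - (b / e) • (↑t⁻¹ : A)) * Z =
      G * (↑E⁻¹ : A) + (b / e) • (1 : A) := by
    rw [hZ, ← mul_assoc, ← mul_assoc, h2, hX, add_mul, smul_mul_assoc, Units.mul_inv]
  have h0 : IsUnit ((Gs : A) * (↑W⁻¹ : A) - (b / e) • (↑t⁻¹ : A)) := by
    rw [← h2] at hX0
    exact (Units.isUnit_mul_units _ W).mp hX0
  have hGt : G = R * ((t : A) * (Gs : A)) := by
    rw [hR]
    calc G = G * (↑Gs⁻¹ : A) * ((↑t⁻¹ : A) * (t : A)) * (Gs : A) := by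
          rw [Units.inv_mul, mul_one, mul_assoc, Units.inv_mul, mul_one]
      _ = _ := by simp only [mul_assoc]
  have h3 : (b • ((t : A) * (Gs : A)) + (b + e) • G) =
      (b • (1 : A) + (b + e) • R) * ((t : A) * (Gs : A)) := by
    rw [add_mul, smul_mul_assoc, smul_mul_assoc, one_mul, ← hGt]
  have h4 : (b • G - (e - b) • ((t : A) * (Gs : A))) =
      (b • R - (e - b) • (1 : A)) * ((t : A) * (Gs : A)) := by
    rw [sub_mul, smul_mul_assoc, smul_mul_assoc, one_mul, ← hGt]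
  rw [h3, h4, ← mul_assoc (G * (↑E⁻¹ : A) + (b / e) • (1 : A)),
    ← mul_assoc ((Gs : A) * (↑W⁻¹ : A) - (b / e) • (↑t⁻¹ : A))] at hq
  have h5 := (t.isUnit.mul Gs.isUnit).mul_right_cancel hq
  rw [← h1, mul_assoc] at h5
  have h6 : Z * (b • R - (e - b) • (1 : A)) = b • (1 : A) + (b + e) • R :=
    h0.mul_left_cancel h5
  have h7 : Z * (b • R + (-(e - b)) • (1 : A)) = (b + e) • R + b • (1 : A) := by
    rw [show b • R + (-(e - b)) • (1 : A) = b • R - (e - b) • (1 : A) by module, h6]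
    module
  have hc : Commute Z R := comm_moebius_r hU h7
  have hA : (↑E⁻¹ : A) * G * (↑Gs⁻¹ : A) * (↑t⁻¹ : A) * (E : A) = (↑E⁻¹ : A) * R * (E : A) := by
    rw [hR]; simp only [mul_assoc]
  have hB : (W : A) * (↑E⁻¹ : A) * X = (↑E⁻¹ : A) * Z * (E : A) := by
    rw [hZ]
    have e1 : (W : A) * (↑E⁻¹ : A) = (↑E⁻¹ : A) * (W : A) := hWE.units_inv_right.eq
    calc (W : A) * (↑E⁻¹ : A) * X = (↑E⁻¹ : A) * ((W : A) * X) * ((↑E⁻¹ : A) * (E : A)) := by
          rw [Units.inv_mul, mul_one, e1, mul_assoc]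
      _ = _ := by simp only [mul_assoc]
  rw [hA, hB]
  change ((↑E⁻¹ : A) * R * (E : A)) * ((↑E⁻¹ : A) * Z * (E : A)) =
    ((↑E⁻¹ : A) * Z * (E : A)) * ((↑E⁻¹ : A) * R * (E : A))
  calc ((↑E⁻¹ : A) * R * (E : A)) * ((↑E⁻¹ : A) * Z * (E : A))
      = (↑E⁻¹ : A) * R * ((E : A) * (↑E⁻¹ : A)) * Z * (E : A) := by simp only [mul_assoc]
    _ = (↑E⁻¹ : A) * (R * Z) * (E : A) := by
        rw [Units.mul_inv, mul_one]; simp only [mul_assoc]
    _ = (↑E⁻¹ : A) * Z * ((E : A) * (↑E⁻¹ : A)) * R * (E : A) := by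
        rw [hc.symm.eq, Units.mul_inv, mul_one]; simp only [mul_assoc]
    _ = _ := by simp only [mul_assoc]

/-- The algebraic form of the key identity. -/
theorem pure_key_r {t W E Tu : Aˣ} {T X Y : A} (hT : (Tu : A) = T)
    (htE : Commute (t : A) (E : A)) (htW : Commute (t : A) (W : A))
    (f1 : Commute T ((W : A) * (↑E⁻¹ : A) * X))
    (f2 : Commute ((t : A) * T * (t : A)) (Y * ((E : A) * (↑W⁻¹ : A)))) :
    (↑t⁻¹ : A) * Y * (t : A) * X * T = T * ((t : A) * Y * (↑t⁻¹ : A) * X) := by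
  obtain ⟨P, hP⟩ : ∃ P : A, P = (W : A) * (↑E⁻¹ : A) * X := ⟨_, rfl⟩
  obtain ⟨u, hu⟩ : ∃ u : A, u = (E : A) * (↑W⁻¹ : A) := ⟨_, rfl⟩
  rw [← hP] at f1
  rw [← hu] at f2
  have hXP : X = u * P := by
    rw [hu, hP]
    calc X = ((E : A) * ((↑W⁻¹ : A) * (W : A)) * (↑E⁻¹ : A)) * X := by
          rw [Units.inv_mul, mul_one, Units.mul_inv, one_mul]
      _ = _ := by simp only [mul_assoc]
  have htu : (t : A) * u = u * (t : A) := by
    rw [hu]
    exact (htE.mul_right htW.units_inv_right).eq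
  have htu' : (↑t⁻¹ : A) * u = u * (↑t⁻¹ : A) := by
    rw [hu]
    exact ((htE.mul_right htW.units_inv_right).units_inv_left).eq
  have f2' : (t : A) * T * (t : A) * (Y * u) = Y * u * ((t : A) * T * (t : A)) := f2.eq
  calc (↑t⁻¹ : A) * Y * (t : A) * X * T = (↑t⁻¹ : A) * Y * ((t : A) * u) * (P * T) := by
        rw [hXP]; simp only [mul_assoc]
    _ = (↑t⁻¹ : A) * (Y * u * ((t : A) * T * (t : A))) * (↑t⁻¹ : A) * P := by
        rw [htu, ← f1.eq]
        have h : (t : A) * T * (t : A) * (↑t⁻¹ : A) = (t : A) * T := by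
          rw [mul_assoc, Units.mul_inv, mul_one]
        calc (↑t⁻¹ : A) * Y * (u * (t : A)) * (T * P)
            = (↑t⁻¹ : A) * Y * u * ((t : A) * T) * P := by simp only [mul_assoc]
          _ = (↑t⁻¹ : A) * Y * u * ((t : A) * T * (t : A) * (↑t⁻¹ : A)) * P := by rw [h]
          _ = _ := by simp only [mul_assoc]
    _ = ((↑t⁻¹ : A) * (t : A)) * T * (t : A) * Y * (u * (↑t⁻¹ : A)) * P := by
        rw [← f2']; simp only [mul_assoc]
    _ = T * ((t : A) * Y * (↑t⁻¹ : A) * X) := by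
        rw [Units.inv_mul, one_mul, ← htu', hXP]; simp only [mul_assoc]

end pure

end Vale.Agent.P011.H674
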