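import Vale.Agent.P011.H674.KeyRing
import Mathlib.Algebra.Star.Unitary
import Mathlib.LinearAlgebra.FiniteDimensional.Basic

/-!
The Cayley chart of the unitary group of an anisotropic involution, the key identity and the
product relation, in every characteristic.
-/

namespace Vale.Agent.P011.H674

/-- The involution is anisotropic and the elements which are not left zero divisors are units. -/
structure AnisoRing (A : Type*) [Ring A] [StarRing A] : Prop where
  an : ∀ x : A, star x * x = 0 → x = 0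
  un : ∀ x : A, (∀ y : A, x * y = 0 → y = 0) → IsUnit x

theorem AnisoRing.of_division {D : Type*} [DivisionRing D] [StarRing D] : AnisoRing D where
  an x h := by
    rcases mul_eq_zero.mp h with h | h
    · exact star_eq_zero.mp h
    · exact h
  un x h := by
    refine IsUnit.mk0 x ?_
    rintro rfl
    exact one_ne_zero (h 1 (zero_mul 1))

theorem AnisoRing.of_finite {F A : Type*} [Field F] [Ring A] [StarRing A] [Algebra F A]
    [FiniteDimensional F A] (h : ∀ x : A, star x * x = 0 → x = 0) : AnisoRing A where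
  an := h
  un x hx := by
    have hinj : Function.Injective (LinearMap.mulLeft F x) := by
      rw [injective_iff_map_eq_zero]
      intro y hy
      exact hx y hy
    have hsurj := (LinearMap.injective_iff_surjective).mp hinj
    obtain ⟨y, hy⟩ := hsurj 1
    have hy1 : x * y = 1 := hy
    have hy2 : y * x = 1 := by
      have h1 : x * (y * x - 1) = 0 := by
        rw [mul_sub, ← mul_assoc, hy1, one_mul, mul_one, sub_self]
      exact sub_eq_zero.mp (hx _ h1)
    exact ⟨⟨x, y, hy1, hy2⟩, rfl⟩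

section

variable {K A : Type*} [Field K] [StarRing K] [Ring A] [StarRing A] [Algebra K A]
  [StarModule K A]

/-- The data of the chart: `θ` is not symmetric. -/
theorem star_e {θ : K} : star (θ - star θ) = -(θ - star θ) := by
  rw [star_sub, star_star, neg_sub]

theorem AnisoRing.sub_unit (hA : AnisoRing A) {θ : K} (hθ : θ - star θ ≠ 0) {s : A}
    (hs : star s = s) : IsUnit (s - θ • (1 : A)) := by
  refine hA.un _ fun y hy => hA.an y ?_
  have h1 : star y * (s - θ • (1 : A)) * y = 0 := by rw [mul_assoc, hy, mul_zero]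
  have h2 : star y * (s - star θ • (1 : A)) * y = 0 := by
    have h3 : star (star y * (s - θ • (1 : A)) * y) = star y * (s - star θ • (1 : A)) * y := by
      rw [star_mul, star_mul, star_star, star_sub, hs, star_smul, star_one, mul_assoc]
    rw [← h3, h1, star_zero]
  have h3 : (θ - star θ) • (star y * y) =
      star y * (s - star θ • (1 : A)) * y - star y * (s - θ • (1 : A)) * y := by
    simp only [mul_sub, sub_mul, mul_smul_comm, smul_mul_assoc, mul_one]
    module
  rw [h1, h2, sub_zero] at h3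
  have h4 := congrArg (fun z => (θ - star θ)⁻¹ • z) h3
  simpa only [smul_smul, inv_mul_cancel₀ hθ, one_smul, smul_zero] using h4

theorem AnisoRing.star_sub_unit (hA : AnisoRing A) {θ : K} (hθ : θ - star θ ≠ 0) {s : A}
    (hs : star s = s) : IsUnit (s - star θ • (1 : A)) := by
  refine hA.sub_unit (θ := star θ) ?_ hs
  rw [star_star]
  intro h
  apply hθ
  rw [← neg_sub, h, neg_zero]

/-- Linear functions of a unitary element are units. -/
theorem AnisoRing.lin_unit (hA : AnisoRing A) {u : A} (hu : star u * u = 1) {α β : K}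
    (hαβ : star α * α - star β * β ≠ 0) : IsUnit (α • u + β • (1 : A)) := by
  refine hA.un _ fun y hy => hA.an y ?_
  have h1 : α • (u * y) = -(β • y) := by
    rw [add_mul, smul_mul_assoc, smul_mul_assoc, one_mul] at hy
    exact eq_neg_of_add_eq_zero_left hy
  have h2 : star (α • (u * y)) * (α • (u * y)) = (star α * α) • (star y * y) := by
    rw [star_smul, star_mul, smul_mul_smul_comm]
    congr 1
    calc star y * star u * (u * y) = star y * (star u * u) * y := by simp only [mul_assoc]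
      _ = _ := by rw [hu, mul_one]
  have h3 : star (α • (u * y)) * (α • (u * y)) = (star β * β) • (star y * y) := by
    rw [h1, star_neg, neg_mul_neg, star_smul, smul_mul_smul_comm]
  have h4 : (star α * α - star β * β) • (star y * y) = 0 := by
    rw [sub_smul, ← h2, ← h3, sub_self]
  have h5 := congrArg (fun z => (star α * α - star β * β)⁻¹ • z) h4
  simpa only [smul_smul, inv_mul_cancel₀ hαβ, one_smul, smul_zero] using h5

/-- The Cayley transform `(s - θ*) (s - θ)⁻¹`. -/
noncomputable def cayr (θ : K) (s : A) : A := (s - star θ • (1 : A)) * Ring.inverse (s - θ • (1 : A))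

theorem lin_comm (α β : K) (s : A) : Commute (s - α • (1 : A)) (s - β • (1 : A)) := by
  have h1 : Commute s (s - β • (1 : A)) :=
    (Commute.refl s).sub_right ((Commute.one_right s).smul_right β)
  exact h1.sub_left ((Commute.one_left _).smul_left α)

theorem cayr_mul (hA : AnisoRing A) {θ : K} (hθ : θ - star θ ≠ 0) {s : A}
    (hs : star s = s) : cayr θ s * (s - θ • (1 : A)) = s - star θ • (1 : A) := by
  unfold cayr
  rw [mul_assoc, Ring.inverse_mul_cancel _ (hA.sub_unit hθ hs), mul_one]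

theorem mul_cayr (hA : AnisoRing A) {θ : K} (hθ : θ - star θ ≠ 0) {s : A}
    (hs : star s = s) : (s - θ • (1 : A)) * cayr θ s = s - star θ • (1 : A) := by
  unfold cayr
  rw [← mul_assoc, (lin_comm θ (star θ) s).eq, mul_assoc,
    Ring.mul_inverse_cancel _ (hA.sub_unit hθ hs), mul_one]

theorem cayr_star_mul (hA : AnisoRing A) {θ : K} (hθ : θ - star θ ≠ 0) {s : A}
    (hs : star s = s) : star (cayr θ s) * cayr θ s = 1 := by
  have h1 := hA.sub_unit hθ hs
  have h2 := hA.star_sub_unit hθ hs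
  have e1 : star (s - θ • (1 : A)) = s - star θ • (1 : A) := by
    rw [star_sub, hs, star_smul, star_one]
  have e2 : star (s - star θ • (1 : A)) = s - θ • (1 : A) := by
    rw [star_sub, hs, star_smul, star_one, star_star]
  -- `star c * (s - θ*) = s - θ`
  have h3 : star (cayr θ s) * (s - star θ • (1 : A)) = s - θ • (1 : A) := by
    rw [← e1, ← star_mul, mul_cayr hA hθ hs, e2]
  refine h1.mul_right_cancel ?_
  rw [mul_assoc, cayr_mul hA hθ hs, h3, one_mul]

theorem cayr_mul_star (hA : AnisoRing A) {θ : K} (hθ : θ - star θ ≠ 0) {s : A}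
    (hs : star s = s) : cayr θ s * star (cayr θ s) = 1 := by
  have h1 := hA.sub_unit hθ hs
  have h2 := hA.star_sub_unit hθ hs
  have e1 : star (s - θ • (1 : A)) = s - star θ • (1 : A) := by
    rw [star_sub, hs, star_smul, star_one]
  have e2 : star (s - star θ • (1 : A)) = s - θ • (1 : A) := by
    rw [star_sub, hs, star_smul, star_one, star_star]
  have h3 : (s - star θ • (1 : A)) * star (cayr θ s) = s - θ • (1 : A) := by
    rw [← e1, ← star_mul, cayr_mul hA hθ hs, e2]
  refine h1.mul_left_cancel ?_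
  rw [← mul_assoc, mul_cayr hA hθ hs, h3, mul_one]

/-- The Cayley transform of a symmetric element as an element of the unitary group. -/
noncomputable def cayU (hA : AnisoRing A) {θ : K} (hθ : θ - star θ ≠ 0) (s : A)
    (hs : star s = s) : unitary A :=
  ⟨cayr θ s, Unitary.mem_iff.mpr ⟨cayr_star_mul hA hθ hs, cayr_mul_star hA hθ hs⟩⟩

/-- The translation vector `b (t + t*) - b² (t - t*) / (θ - θ*)`. -/
def vecr (θ b : K) (t : A) : A :=
  b • (t + star t) - (b ^ 2 / (θ - star θ)) • (t - star t)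

theorem vecr_star {θ b : K} (hb : star b = b) (t : A) : star (vecr θ b t) = vecr θ b t := by
  have hs : star (b ^ 2 / (θ - star θ)) = -(b ^ 2 / (θ - star θ)) := by
    rw [star_div₀, star_pow, star_e, hb, div_neg]
  unfold vecr
  rw [star_sub, star_smul, star_smul, hs, hb, star_add, star_sub, star_star]
  module

theorem star_Er {θ b : K} (hb : star b = b) {t : Aˣ} (ht : star (t : A) = (↑t⁻¹ : A)) :
    star (Er (θ - star θ) b (t : A)) = (↑t⁻¹ : A) * Wr (θ - star θ) b (t : A) := by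
  rw [invt_Wr]
  unfold Er
  rw [star_sub, star_smul, star_smul, star_one, star_sub (θ - star θ) b, star_e, hb, ht]
  module

/-- The element `G`. -/
def Gr (θ b : K) (t ξ : A) : A :=
  ξ - star θ • (1 : A) - (b / (θ - star θ)) • Er (θ - star θ) b t

theorem Gr_star {θ b : K} (hb : star b = b) {t : Aˣ} (ht : star (t : A) = (↑t⁻¹ : A)) {ξ : A}
    (hξ : star ξ = ξ) : star (Gr θ b (t : A) ξ) =
      ξ - θ • (1 : A) + (b / (θ - star θ)) • ((↑t⁻¹ : A) * Wr (θ - star θ) b (t : A)) := by
  have hs : star (b / (θ - star θ)) = -(b / (θ - star θ)) := by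
    rw [star_div₀, star_e, hb, div_neg]
  unfold Gr
  rw [star_sub, star_sub, star_smul, star_smul, star_one, star_star, hξ, star_Er hb ht, hs]
  module

theorem Gr_sub {θ b : K} (hθ : θ - star θ ≠ 0) (hb : star b = b) {t : Aˣ}
    (ht : star (t : A) = (↑t⁻¹ : A)) {ξ : A} (hξ : star ξ = ξ) :
    Gr θ b (t : A) ξ - star (Gr θ b (t : A) ξ) = Dr (θ - star θ) b t := by
  rw [Gr_star hb ht hξ]
  unfold Gr Dr
  module

theorem vecr_eq {θ b : K} (hθ : θ - star θ ≠ 0) {t : Aˣ} (ht : star (t : A) = (↑t⁻¹ : A)) :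
    vecr θ b (t : A) = (b / (θ - star θ)) •
      ((↑t⁻¹ : A) * Wr (θ - star θ) b (t : A) - Er (θ - star θ) b (t : A)) := by
  rw [invt_Wr]
  unfold vecr Er
  rw [ht]
  match_scalars <;> field_simp <;> ring

theorem sq_ne {e b : K} (he : e ≠ 0) (hse : star e = -e) (hb : star b = b) :
    star b * b - star (b + e) * (b + e) ≠ 0 := by
  rw [star_add, hb, hse]
  intro h
  exact (pow_ne_zero 2 he) (by linear_combination h)

theorem sq_ne' {e b : K} (he : e ≠ 0) (hse : star e = -e) (hb : star b = b) :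
    star (-(e - b)) * (-(e - b)) - star b * b ≠ 0 := by
  rw [star_neg, star_sub, hb, hse]
  intro h
  exact (pow_ne_zero 2 he) (by linear_combination -h)

theorem sq_ne'' {e b : K} (he : e ≠ 0) (hse : star e = -e) (hb : star b = b) :
    star b * b - star (-(e - b)) * (-(e - b)) ≠ 0 := by
  rw [star_neg, star_sub, hb, hse]
  intro h
  exact (pow_ne_zero 2 he) (by linear_combination h)

/-- The key identity: `t⁻¹ Y t X` and `t Y t⁻¹ X` are conjugate under the unitary group, with
`X = Cay ξ` and `Y = Cay (ξ + v)`. -/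
theorem key_unitary (hA : AnisoRing A) {θ b : K} (hθ : θ - star θ ≠ 0) (hb : star b = b)
    (t : unitary A) {ξ : A} (hξ : star ξ = ξ) (hv : star (ξ + vecr θ b (t : A)) =
      ξ + vecr θ b (t : A)) :
    ∃ T : unitary A, t⁻¹ * cayU hA hθ (ξ + vecr θ b (t : A)) hv * t * cayU hA hθ ξ hξ * T =
      T * (t * cayU hA hθ (ξ + vecr θ b (t : A)) hv * t⁻¹ * cayU hA hθ ξ hξ) := by
  obtain ⟨tu, htu⟩ : ∃ tu : Aˣ, tu = Unitary.toUnits t := ⟨_, rfl⟩
  have ht1 : (tu : A) = (t : A) := by rw [htu]; rfl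
  have ht2 : (↑tu⁻¹ : A) = star (t : A) := by rw [htu]; rfl
  have ht : star (tu : A) = (↑tu⁻¹ : A) := by rw [ht1, ht2]
  have htt : star (t : A) * (t : A) = 1 := Unitary.star_mul_self_of_mem t.2
  have hse : star (θ - star θ) = -(θ - star θ) := star_e
  have hWu : IsUnit (Wr (θ - star θ) b (tu : A)) := by
    rw [ht1]
    exact hA.lin_unit htt (sq_ne hθ hse hb)
  have hEu : IsUnit (Er (θ - star θ) b (tu : A)) := by
    have h : Er (θ - star θ) b (tu : A) =
        (-((θ - star θ) - b)) • (t : A) + b • (1 : A) := by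
      rw [ht1]; unfold Er; module
    rw [h]
    exact hA.lin_unit htt (sq_ne' hθ hse hb)
  obtain ⟨W, hW⟩ := hWu
  obtain ⟨E, hE⟩ := hEu
  have hsE : star (E : A) = (↑tu⁻¹ : A) * (W : A) := by rw [hE, hW, star_Er hb ht]
  have hG := Gr_sub hθ hb ht hξ
  have hGsE := Gr_star (θ := θ) hb ht hξ
  have htE : Commute (tu : A) (E : A) := by rw [hE]; exact Er_comm _ b (tu : A)
  have htW : Commute (tu : A) (W : A) := by rw [hW]; exact Wr_comm _ b (tu : A)
  have hWE : Commute (W : A) (E : A) := by rw [hE, hW]; exact WEr_comm _ b (tu : A)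
  have hΔ : Dr (θ - star θ) b tu = -((θ - star θ)⁻¹ • (star (E : A) * (E : A))) := by
    rw [Dr_eq' hθ, ← hW, ← hE, hsE, mul_assoc]
  obtain ⟨G, hGd⟩ : ∃ G, G = Gr θ b (tu : A) ξ := ⟨_, rfl⟩
  rw [← hGd] at hG hGsE
  -- `G` is a unit
  have hGu : IsUnit G := by
    refine hA.un _ fun y hy => ?_
    have h1 : star y * G * y = 0 := by rw [mul_assoc, hy, mul_zero]
    have h2 : star y * star G * y = 0 := by
      have h3 : star (star y * G * y) = star y * star G * y := by
        rw [star_mul, star_mul, star_star, mul_assoc]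
      rw [← h3, h1, star_zero]
    have h3 : star ((E : A) * y) * ((E : A) * y) = 0 := by
      have h4 : star y * Dr (θ - star θ) b tu * y = 0 := by
        rw [← hG, mul_sub, sub_mul, h1, h2, sub_zero]
      rw [hΔ, mul_neg, neg_mul, neg_eq_zero, mul_smul_comm, smul_mul_assoc] at h4
      have h5 := congrArg (fun z => (θ - star θ) • z) h4
      simp only [smul_smul, mul_inv_cancel₀ hθ, one_smul, smul_zero] at h5
      rw [star_mul, ← h5]
      simp only [mul_assoc]
    have h4 := hA.an _ h3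
    have h5 : (↑E⁻¹ : A) * ((E : A) * y) = y := by rw [← mul_assoc, Units.inv_mul, one_mul]
    rw [← h5, h4, mul_zero]
  obtain ⟨Gu, hGu⟩ := hGu
  obtain ⟨Gs, hGs⟩ : ∃ Gs : Aˣ, Gs = star Gu := ⟨_, rfl⟩
  have hGs1 : (Gs : A) = star G := by rw [hGs, Units.coe_star, hGu]
  rw [← hGs1] at hG hGsE
  have hsGs : star (Gs : A) = G := by rw [hGs1, star_star]
  have hξ1 := hA.sub_unit hθ hξ
  have hξ2 := hA.sub_unit hθ hv
  rw [← hW] at hGsE
  -- the four expressions
  have x1 : (Gs : A) - (b / (θ - star θ)) • ((↑tu⁻¹ : A) * (W : A)) = ξ - θ • (1 : A) := by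
    rw [hGsE]; abel
  have x2 : G + (b / (θ - star θ)) • (E : A) = ξ - star θ • (1 : A) := by
    rw [hGd, hE]; unfold Gr; abel
  have hvec := vecr_eq (b := b) hθ ht
  rw [ht1] at hvec
  rw [← ht1, ← hW, ← hE] at hvec
  have hvt : vecr θ b (t : A) = vecr θ b (tu : A) := by rw [ht1]
  have x3 : (Gs : A) - (b / (θ - star θ)) • (E : A) = ξ + vecr θ b (t : A) - θ • (1 : A) := by
    rw [hvt, hvec, hGsE]; module
  have x4 : G + (b / (θ - star θ)) • ((↑tu⁻¹ : A) * (W : A)) =
      ξ + vecr θ b (t : A) - star θ • (1 : A) := by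
    rw [hvt, hvec, hGd, hE]; unfold Gr; module
  obtain ⟨Tu, hTu⟩ : ∃ Tu : Aˣ, Tu = E⁻¹ * Gu * Gs⁻¹ * tu⁻¹ * E := ⟨_, rfl⟩
  obtain ⟨T, hT⟩ : ∃ T : A, T = (↑E⁻¹ : A) * G * (↑Gs⁻¹ : A) * (↑tu⁻¹ : A) * (E : A) := ⟨_, rfl⟩
  have hTT : (Tu : A) = T := by
    rw [hTu, hT]
    simp only [Units.val_mul, hGu]
  -- `T` is unitary
  have hTs : T * star T = 1 := by
    have hsEi : star (↑E⁻¹ : A) = (↑W⁻¹ : A) * (tu : A) := by
      have h1 : star (E : A) * ((↑W⁻¹ : A) * (tu : A)) = 1 := by
        rw [hsE]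
        calc (↑tu⁻¹ : A) * (W : A) * ((↑W⁻¹ : A) * (tu : A))
            = (↑tu⁻¹ : A) * ((W : A) * (↑W⁻¹ : A)) * (tu : A) := by simp only [mul_assoc]
          _ = 1 := by rw [Units.mul_inv, mul_one, Units.inv_mul]
      have h2 : star (↑E⁻¹ : A) * star (E : A) = 1 := by
        rw [← star_mul, Units.mul_inv, star_one]
      calc star (↑E⁻¹ : A) = star (↑E⁻¹ : A) * (star (E : A) * ((↑W⁻¹ : A) * (tu : A))) := by
            rw [h1, mul_one]
        _ = _ := by rw [← mul_assoc, h2, one_mul]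
    have hsG : star G = (Gs : A) := hGs1.symm
    have hsGsi : star (↑Gs⁻¹ : A) = (↑Gu⁻¹ : A) := by
      rw [hGs, ← Units.coe_star, star_inv, star_star]
    have hsti : star (↑tu⁻¹ : A) = (tu : A) := by rw [← ht, star_star]
    have hst : star T = (↑tu⁻¹ : A) * (W : A) * (tu : A) * (↑Gu⁻¹ : A) * (Gs : A) *
        ((↑W⁻¹ : A) * (tu : A)) := by
      rw [hT, star_mul, star_mul, star_mul, star_mul, hsE, hsti, hsGsi, hsG, hsEi]
      simp only [mul_assoc]
    have e1 : (↑tu⁻¹ : A) * (E : A) * ((↑tu⁻¹ : A) * (W : A) * (tu : A)) =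
        -((θ - star θ) • Dr (θ - star θ) b tu) := by
      have e2 : (↑tu⁻¹ : A) * (E : A) = (E : A) * (↑tu⁻¹ : A) := htE.units_inv_left.eq
      have e3 : (W : A) * (tu : A) = (tu : A) * (W : A) := htW.symm.eq
      have e4 : (↑tu⁻¹ : A) * (W : A) * (tu : A) = (W : A) := by
        rw [mul_assoc, e3, ← mul_assoc, Units.inv_mul, one_mul]
      rw [e4, hΔ, smul_neg, neg_neg, smul_smul, mul_inv_cancel₀ hθ, one_smul, hsE]
      calc (↑tu⁻¹ : A) * (E : A) * (W : A) = (↑tu⁻¹ : A) * ((E : A) * (W : A)) := by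
            rw [mul_assoc]
        _ = _ := by rw [hWE.symm.eq, mul_assoc]
    have e5 : G * (↑Gs⁻¹ : A) * Dr (θ - star θ) b tu * (↑Gu⁻¹ : A) * (Gs : A) =
        Dr (θ - star θ) b tu := by
      rw [← hG, ← hGu]
      calc (Gu : A) * (↑Gs⁻¹ : A) * ((Gu : A) - (Gs : A)) * (↑Gu⁻¹ : A) * (Gs : A)
          = (Gu : A) * (↑Gs⁻¹ : A) * ((Gu : A) * (↑Gu⁻¹ : A)) * (Gs : A) -
            (Gu : A) * ((↑Gs⁻¹ : A) * (Gs : A)) * (↑Gu⁻¹ : A) * (Gs : A) := by
            noncomm_ring
        _ = (Gu : A) - (Gs : A) := by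
            rw [Units.mul_inv, Units.inv_mul, mul_one, mul_one, Units.mul_inv, one_mul,
              mul_assoc, Units.inv_mul, mul_one]
    have e6 : -((θ - star θ) • Dr (θ - star θ) b tu) * ((↑W⁻¹ : A) * (tu : A)) = (E : A) := by
      rw [hΔ, smul_neg, neg_neg, smul_smul, mul_inv_cancel₀ hθ, one_smul, hsE]
      have e2 : (E : A) * ((↑W⁻¹ : A) * (tu : A)) = (↑W⁻¹ : A) * (tu : A) * (E : A) := by
        have c1 : Commute (E : A) ((↑W⁻¹ : A) * (tu : A)) :=
          (hWE.symm.units_inv_right).mul_right htE.symm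
        exact c1.eq
      calc (↑tu⁻¹ : A) * (W : A) * (E : A) * ((↑W⁻¹ : A) * (tu : A))
          = (↑tu⁻¹ : A) * (W : A) * ((E : A) * ((↑W⁻¹ : A) * (tu : A))) := by
            simp only [mul_assoc]
        _ = (↑tu⁻¹ : A) * ((W : A) * (↑W⁻¹ : A)) * (tu : A) * (E : A) := by
            rw [e2]; simp only [mul_assoc]
        _ = (E : A) := by rw [Units.mul_inv, mul_one, Units.inv_mul, one_mul]
    rw [hst, hT]
    calc (↑E⁻¹ : A) * G * (↑Gs⁻¹ : A) * (↑tu⁻¹ : A) * (E : A) *
          ((↑tu⁻¹ : A) * (W : A) * (tu : A) * (↑Gu⁻¹ : A) * (Gs : A) * ((↑W⁻¹ : A) * (tu : A)))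
        = (↑E⁻¹ : A) * (G * (↑Gs⁻¹ : A) * ((↑tu⁻¹ : A) * (E : A) *
            ((↑tu⁻¹ : A) * (W : A) * (tu : A))) * (↑Gu⁻¹ : A) * (Gs : A)) *
            ((↑W⁻¹ : A) * (tu : A)) := by simp only [mul_assoc]
      _ = (↑E⁻¹ : A) * (-((θ - star θ) • (G * (↑Gs⁻¹ : A) * Dr (θ - star θ) b tu *
            (↑Gu⁻¹ : A) * (Gs : A)))) * ((↑W⁻¹ : A) * (tu : A)) := by
          rw [e1]
          simp only [mul_neg, neg_mul, mul_smul_comm, smul_mul_assoc]
      _ = (↑E⁻¹ : A) * (-((θ - star θ) • Dr (θ - star θ) b tu) * ((↑W⁻¹ : A) * (tu : A))) := by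
          rw [e5, mul_assoc]
      _ = 1 := by rw [e6, Units.inv_mul]
  have hTs' : star T * T = 1 := by
    have h1 : star T = (↑Tu⁻¹ : A) := by
      rw [← hTT] at hTs ⊢
      calc star (Tu : A) = (↑Tu⁻¹ : A) * ((Tu : A) * star (Tu : A)) := by
            rw [← mul_assoc, Units.inv_mul, one_mul]
        _ = _ := by rw [hTs, mul_one]
    rw [h1, ← hTT, Units.inv_mul]
  have htTt : star ((tu : A) * T * (tu : A)) * ((tu : A) * T * (tu : A)) = 1 := by
    rw [star_mul, star_mul, ht]
    calc (↑tu⁻¹ : A) * (star T * (↑tu⁻¹ : A)) * ((tu : A) * T * (tu : A))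
        = (↑tu⁻¹ : A) * (star T * ((↑tu⁻¹ : A) * (tu : A)) * T) * (tu : A) := by
          simp only [mul_assoc]
      _ = 1 := by rw [Units.inv_mul, mul_one, hTs', mul_one, Units.inv_mul]
  -- the two commutations
  have f1 : Commute T ((W : A) * (↑E⁻¹ : A) * cayr θ ξ) := by
    rw [hT]
    refine F1r hθ hW hE hG ?_ ?_ ?_
    · rw [x1]; exact hξ1
    · have h1 : b • (G * (↑Gs⁻¹ : A) * (↑tu⁻¹ : A)) + (-((θ - star θ) - b)) • (1 : A) =
          (E : A) * (b • T + (-((θ - star θ) - b)) • (1 : A)) * (↑E⁻¹ : A) := by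
        rw [hT, mul_add, add_mul, mul_smul_comm, mul_smul_comm, smul_mul_assoc, smul_mul_assoc,
          mul_one, Units.mul_inv]
        congr 2
        calc G * (↑Gs⁻¹ : A) * (↑tu⁻¹ : A)
            = ((E : A) * (↑E⁻¹ : A)) * G * (↑Gs⁻¹ : A) * (↑tu⁻¹ : A) *
              ((E : A) * (↑E⁻¹ : A)) := by rw [Units.mul_inv, one_mul, mul_one]
          _ = _ := by simp only [mul_assoc]
      rw [h1]
      exact (E.isUnit.mul (hA.lin_unit hTs' (sq_ne'' hθ hse hb))).mul (E⁻¹).isUnit
    · rw [x1, x2, mul_cayr hA hθ hξ]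
  have f2 : Commute ((tu : A) * T * (tu : A))
      (cayr θ (ξ + vecr θ b (t : A)) * ((E : A) * (↑W⁻¹ : A))) := by
    have hU : IsUnit (b • ((tu : A) * G * (↑Gs⁻¹ : A)) + (b + (θ - star θ)) • (1 : A)) := by
      have h1 : b • ((tu : A) * G * (↑Gs⁻¹ : A)) + (b + (θ - star θ)) • (1 : A) =
          (E : A) * (b • ((tu : A) * T * (tu : A)) + (b + (θ - star θ)) • (1 : A)) *
            (↑E⁻¹ : A) := by
        rw [hT, mul_add, add_mul, mul_smul_comm, mul_smul_comm, smul_mul_assoc, smul_mul_assoc,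
          mul_one, Units.mul_inv]
        congr 2
        have e1 : (E : A) * (tu : A) = (tu : A) * (E : A) := htE.symm.eq
        have e2 : (E : A) * (tu : A) * (↑E⁻¹ : A) = (tu : A) := by
          rw [e1, mul_assoc, Units.mul_inv, mul_one]
        calc (tu : A) * G * (↑Gs⁻¹ : A)
            = (tu : A) * ((E : A) * (↑E⁻¹ : A)) * G * (↑Gs⁻¹ : A) * ((↑tu⁻¹ : A) * (tu : A)) := by
              rw [Units.mul_inv, mul_one, Units.inv_mul, mul_one]
          _ = ((tu : A) * (E : A)) * (↑E⁻¹ : A) * G * (↑Gs⁻¹ : A) * (↑tu⁻¹ : A) *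
              ((E : A) * (tu : A) * (↑E⁻¹ : A)) := by
              rw [e2]; simp only [mul_assoc]
          _ = _ := by rw [← e1]; simp only [mul_assoc]
      rw [h1]
      exact (E.isUnit.mul (hA.lin_unit htTt (sq_ne hθ hse hb))).mul (E⁻¹).isUnit
    rw [hT]
    refine F2r hθ hW hE hG ?_ hU ?_
    · rw [x3]; exact hξ2
    · rw [x3, x4, mul_cayr hA hθ hv]
  have key := pure_key_r hTT htE htW f1 f2
  refine ⟨⟨T, Unitary.mem_iff.mpr ⟨hTs', hTs⟩⟩, ?_⟩
  apply Subtype.ext
  have hti : ((t⁻¹ : unitary A) : A) = (↑tu⁻¹ : A) := by rw [ht2]; rfl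
  simp only [Submonoid.coe_mul, hti, ← ht1]
  rw [← ht1] at key
  exact key

end

end Vale.Agent.P011.H674
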