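import Mathlib.Algebra.Ring.Subring.Basic
import Mathlib.Algebra.Field.Basic
import Mathlib.Algebra.GroupWithZero.Commute

/-!
Commuting elements of a division ring are in the image of a field.
-/

namespace Vale.Agent.P011.H674.Pair

universe u

variable {D : Type u} [DivisionRing D]

/-- A commutative subring which is closed under inverses is a field. -/
noncomputable abbrev fieldOf (E : Subring D) (hc : ∀ x ∈ E, ∀ y ∈ E, x * y = y * x)
    (hi : ∀ x ∈ E, x⁻¹ ∈ E) : Field E :=
  { (inferInstance : Ring E) with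
    mul_comm := fun x y => Subtype.ext (hc x x.2 y y.2)
    inv := fun x => ⟨(x : D)⁻¹, hi x x.2⟩
    exists_pair_ne := ⟨0, 1, fun h0 => zero_ne_one (congrArg Subtype.val h0)⟩
    mul_inv_cancel := fun x hx => Subtype.ext (mul_inv_cancel₀ fun h0 => hx (Subtype.ext h0))
    inv_zero := Subtype.ext inv_zero
    nnqsmul := _
    qsmul := _
    nnqsmul_def := fun _ _ => rfl
    qsmul_def := fun _ _ => rfl }

/-- The double centralizer of a set of commuting elements is commutative. -/
theorem exists_subring (S : Set D) (hS : ∀ x ∈ S, ∀ y ∈ S, x * y = y * x) :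
    ∃ E : Subring D, S ⊆ E ∧ (∀ x ∈ E, ∀ y ∈ E, x * y = y * x) ∧ ∀ x ∈ E, x⁻¹ ∈ E := by
  have h1 : S ⊆ Subring.centralizer S := by
    intro x hx
    rw [SetLike.mem_coe, Subring.mem_centralizer_iff]
    exact fun y hy => hS y hy x hx
  refine ⟨Subring.centralizer (Subring.centralizer S : Set D), ?_, ?_, ?_⟩
  · intro x hx
    rw [SetLike.mem_coe, Subring.mem_centralizer_iff]
    intro y hy
    rw [SetLike.mem_coe, Subring.mem_centralizer_iff] at hy
    exact (hy x hx).symm
  · intro x hx y hy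
    rw [Subring.mem_centralizer_iff] at hx hy
    refine hy x ?_
    rw [SetLike.mem_coe, Subring.mem_centralizer_iff]
    intro z hz
    exact hx z (h1 hz)
  · intro x hx
    rw [Subring.mem_centralizer_iff] at hx ⊢
    intro y hy
    exact (Commute.inv_right₀ (hx y hy) : Commute y x⁻¹)

theorem exists_lift (S : Set D) (hS : ∀ x ∈ S, ∀ y ∈ S, x * y = y * x) :
    ∃ (E : Type u) (_ : Field E) (φ : E →+* D), ∀ x ∈ S, ∃ y, φ y = x := by
  obtain ⟨E, h1, h2, h3⟩ := exists_subring S hS
  let _ := fieldOf E h2 h3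
  exact ⟨E, inferInstance, E.subtype, fun x hx => ⟨⟨x, h1 hx⟩, rfl⟩⟩

theorem exists_lift2 (a b : D) (hab : a * b = b * a) :
    ∃ (E : Type u) (_ : Field E) (φ : E →+* D) (a' b' : E), φ a' = a ∧ φ b' = b := by
  obtain ⟨E, i, φ, hφ⟩ := exists_lift {a, b} (by
    rintro x (rfl | rfl) y (rfl | rfl)
    · rfl
    · exact hab
    · exact hab.symm
    · rfl)
  obtain ⟨a', ha⟩ := hφ a (by simp)
  obtain ⟨b', hb⟩ := hφ b (by simp)
  exact ⟨E, i, φ, a', b', ha, hb⟩

theorem exists_lift3 (a b c : D) (hab : a * b = b * a) (hac : a * c = c * a)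
    (hbc : b * c = c * b) :
    ∃ (E : Type u) (_ : Field E) (φ : E →+* D) (a' b' c' : E), φ a' = a ∧ φ b' = b ∧ φ c' = c := by
  obtain ⟨E, i, φ, hφ⟩ := exists_lift {a, b, c} (by
    rintro x (rfl | rfl | rfl) y (rfl | rfl | rfl)
    · rfl
    · exact hab
    · exact hac
    · exact hab.symm
    · rfl
    · exact hbc
    · exact hac.symm
    · exact hbc.symm
    · rfl)
  obtain ⟨a', ha⟩ := hφ a (by simp)
  obtain ⟨b', hb⟩ := hφ b (by simp)
  obtain ⟨c', hc⟩ := hφ c (by simp)
  exact ⟨E, i, φ, a', b', c', ha, hb, hc⟩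

theorem exists_lift4 (a b c d : D) (hab : a * b = b * a) (hac : a * c = c * a)
    (had : a * d = d * a) (hbc : b * c = c * b) (hbd : b * d = d * b) (hcd : c * d = d * c) :
    ∃ (E : Type u) (_ : Field E) (φ : E →+* D) (a' b' c' d' : E),
      φ a' = a ∧ φ b' = b ∧ φ c' = c ∧ φ d' = d := by
  obtain ⟨E, i, φ, hφ⟩ := exists_lift {a, b, c, d} (by
    rintro x (rfl | rfl | rfl | rfl) y (rfl | rfl | rfl | rfl)
    · rfl
    · exact hab
    · exact hac
    · exact had
    · exact hab.symm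
    · rfl
    · exact hbc
    · exact hbd
    · exact hac.symm
    · exact hbc.symm
    · rfl
    · exact hcd
    · exact had.symm
    · exact hbd.symm
    · exact hcd.symm
    · rfl)
  obtain ⟨a', ha⟩ := hφ a (by simp)
  obtain ⟨b', hb⟩ := hφ b (by simp)
  obtain ⟨c', hc⟩ := hφ c (by simp)
  obtain ⟨d', hd⟩ := hφ d (by simp)
  exact ⟨E, i, φ, a', b', c', d', ha, hb, hc, hd⟩

end Vale.Agent.P011.H674.Pair
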